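import Mathlib
import Vale.Agent.P214.Defs

/-! # P214, block AREA: the Jacobian of the projection between two planes -/

open MeasureTheory Set Filter Topology Metric
open scoped ENNReal NNReal RealInnerProductSpace

set_option linter.unusedSectionVars false

namespace Vale.Agent.P214.AREA

variable {E : Type*} [NormedAddCommGroup E] [InnerProductSpace ℝ E] [FiniteDimensional ℝ E]

/-- Jacobian of `p` on the range of `P` (both orthogonal projections). -/
noncomputable def jac (p P : E →L[ℝ] E) : ℝ :=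
  Real.sqrt |ContinuousLinearMap.det (1 - P + P * p * P)|

lemma jac_nonneg (p P : E →L[ℝ] E) : 0 ≤ jac p P := Real.sqrt_nonneg _

lemma continuous_jac (p : E →L[ℝ] E) : Continuous (jac p) := by
  unfold jac
  have h : Continuous fun P : E →L[ℝ] E => 1 - P + P * p * P := by fun_prop
  exact (ContinuousLinearMap.continuous_det.comp h).abs.sqrt

/-- Weinstein–Aronszajn identity for linear maps. -/
lemma det_one_add_comp {E F : Type*} [AddCommGroup E] [Module ℝ E] [FiniteDimensional ℝ E]
    [AddCommGroup F] [Module ℝ F] [FiniteDimensional ℝ F] (f : F →ₗ[ℝ] E) (g : E →ₗ[ℝ] F) :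
    LinearMap.det (1 + f ∘ₗ g) = LinearMap.det (1 + g ∘ₗ f) := by
  classical
  let bE := Module.finBasis ℝ E
  let bF := Module.finBasis ℝ F
  rw [← LinearMap.det_toMatrix bE, ← LinearMap.det_toMatrix bF, map_add, map_add,
    LinearMap.toMatrix_one, LinearMap.toMatrix_one, LinearMap.toMatrix_comp bE bF bE,
    LinearMap.toMatrix_comp bF bE bF, Matrix.det_one_add_mul_comm]

lemma det_adj {F : Type*} [NormedAddCommGroup F] [InnerProductSpace ℝ F] [FiniteDimensional ℝ F]
    (A : F →L[ℝ] F) : LinearMap.det (ContinuousLinearMap.adjoint A).toLinearMap =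
      LinearMap.det A.toLinearMap := by
  have h := LinearMap.toMatrix_adjoint (stdOrthonormalBasis ℝ F) (stdOrthonormalBasis ℝ F)
    A.toLinearMap
  have h2 : LinearMap.adjoint A.toLinearMap = (ContinuousLinearMap.adjoint A).toLinearMap := rfl
  rw [← LinearMap.det_toMatrix (stdOrthonormalBasis ℝ F).toBasis, ← h2, h,
    Matrix.det_conjTranspose, LinearMap.det_toMatrix]
  simp

section planes

variable {m : ℕ}

/-- isometric linear parametrisation of a plane; the projection is `ι ι^*` -/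
lemma exists_param {T₀ : Submodule ℝ E} (hT : Module.finrank ℝ T₀ = m) :
    ∃ ι : EuclideanSpace ℝ (Fin m) →ₗᵢ[ℝ] E, range ι = (T₀ : Set E) ∧
      (∀ p, ContinuousLinearMap.adjoint ι.toContinuousLinearMap (ι p) = p) ∧
      ∀ z, proj T₀ z = ι (ContinuousLinearMap.adjoint ι.toContinuousLinearMap z) := by
  let b := (stdOrthonormalBasis ℝ T₀).reindex (finCongr hT)
  let ι : EuclideanSpace ℝ (Fin m) →ₗᵢ[ℝ] E :=
    T₀.subtypeₗᵢ.comp b.repr.symm.toLinearIsometry
  have hr : range ι = (T₀ : Set E) := by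
    ext y
    constructor
    · rintro ⟨p, rfl⟩; exact (b.repr.symm p).2
    · intro hy
      exact ⟨b.repr ⟨y, hy⟩, by simp [ι]⟩
  have ha : ∀ p, ContinuousLinearMap.adjoint ι.toContinuousLinearMap (ι p) = p := by
    intro p
    refine ext_inner_right ℝ fun q => ?_
    rw [ContinuousLinearMap.adjoint_inner_left]
    exact ι.inner_map_map p q
  refine ⟨ι, hr, ha, fun z => ?_⟩
  have hmem : ∀ q, ι q ∈ T₀ := fun q => by
    have : ι q ∈ range ι := ⟨q, rfl⟩
    rwa [hr] at this
  unfold proj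
  refine Submodule.eq_starProjection_of_mem_of_inner_eq_zero (hmem _) fun w hw => ?_
  have hw' : w ∈ range ι := by rw [hr]; exact hw
  obtain ⟨q, rfl⟩ := hw'
  rw [inner_sub_left, ι.inner_map_map, ContinuousLinearMap.adjoint_inner_left]
  simp

/-- the matrix of the projection of `T` onto `T₀` in isometric parametrisations -/
noncomputable def pmap (ι₀ ι : EuclideanSpace ℝ (Fin m) →ₗᵢ[ℝ] E) :
    EuclideanSpace ℝ (Fin m) →L[ℝ] EuclideanSpace ℝ (Fin m) :=
  (ContinuousLinearMap.adjoint ι₀.toContinuousLinearMap).comp ι.toContinuousLinearMap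

lemma jac_eq {T T₀ : Submodule ℝ E} {ι₀ ι : EuclideanSpace ℝ (Fin m) →ₗᵢ[ℝ] E}
    (h₀ : ∀ z, proj T₀ z = ι₀ (ContinuousLinearMap.adjoint ι₀.toContinuousLinearMap z))
    (ha : ∀ p, ContinuousLinearMap.adjoint ι.toContinuousLinearMap (ι p) = p)
    (h : ∀ z, proj T z = ι (ContinuousLinearMap.adjoint ι.toContinuousLinearMap z)) :
    jac (proj T₀) (proj T) = |LinearMap.det (pmap ι₀ ι).toLinearMap| := by
  set A : EuclideanSpace ℝ (Fin m) →L[ℝ] EuclideanSpace ℝ (Fin m) := pmap ι₀ ι with hA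
  set B : EuclideanSpace ℝ (Fin m) →ₗ[ℝ] EuclideanSpace ℝ (Fin m) :=
    (ContinuousLinearMap.adjoint A).toLinearMap ∘ₗ A.toLinearMap with hB
  have h1 : ((1 - proj T + proj T * proj T₀ * proj T : E →L[ℝ] E) : E →ₗ[ℝ] E) =
      1 + ι.toLinearMap ∘ₗ ((B - 1) ∘ₗ
        (ContinuousLinearMap.adjoint ι.toContinuousLinearMap).toLinearMap) := by
    ext z
    have h2 : proj T (proj T₀ (proj T z)) = ι (B (ContinuousLinearMap.adjoint
        ι.toContinuousLinearMap z)) := by
      rw [h (proj T₀ (proj T z)), h₀, h z]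
      rw [hB, hA]
      simp [pmap, ContinuousLinearMap.adjoint_comp]
    simp only [ContinuousLinearMap.coe_coe, FunLike.coe_add, FunLike.coe_sub, Pi.add_apply, Pi.sub_apply,
      one_apply_eq_self, mul_apply_eq_comp, LinearMap.add_apply, Module.End.one_apply, LinearMap.comp_apply,
      LinearMap.sub_apply, map_sub, LinearIsometry.coe_toLinearMap]
    rw [h2, h z]
    abel
  have h3 : ContinuousLinearMap.det (1 - proj T + proj T * proj T₀ * proj T : E →L[ℝ] E) =
      LinearMap.det B := by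
    show LinearMap.det _ = _
    rw [h1, det_one_add_comp]
    congr 1
    ext z
    simp [ha]
  unfold jac
  rw [h3, hB, LinearMap.det_comp]
  have h4 : LinearMap.det (ContinuousLinearMap.adjoint A).toLinearMap =
      LinearMap.det A.toLinearMap := det_adj A
  rw [h4, abs_mul, Real.sqrt_mul_self (abs_nonneg _)]

/-- the Jacobian is positive iff the plane is transversal to the kernel of the projection -/
lemma jac_pos_iff {T T₀ : Submodule ℝ E} (hT : Module.finrank ℝ T = m)
    (hT₀ : Module.finrank ℝ T₀ = m) :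
    0 < jac (proj T₀) (proj T) ↔ ∀ z ∈ T, proj T₀ z = 0 → z = 0 := by
  obtain ⟨ι₀, -, ha₀, h₀⟩ := exists_param hT₀
  obtain ⟨ι, hr, ha, h⟩ := exists_param hT
  rw [jac_eq h₀ ha h, abs_pos, Ne, LinearMap.det_eq_zero_iff_ker_ne_bot, not_not,
    LinearMap.ker_eq_bot']
  have key : ∀ q, (pmap ι₀ ι).toLinearMap q = 0 ↔ proj T₀ (ι q) = 0 := by
    intro q
    rw [h₀]
    constructor
    · intro hq
      have : (ContinuousLinearMap.adjoint ι₀.toContinuousLinearMap) (ι q) = 0 := hq
      rw [this, map_zero]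
    · intro hq
      have : ι₀ ((ContinuousLinearMap.adjoint ι₀.toContinuousLinearMap) (ι q)) = ι₀ 0 := by
        rw [hq, map_zero]
      exact ι₀.injective this
  constructor
  · intro hA z hz hz0
    have hz' : z ∈ range ι := by rw [hr]; exact hz
    obtain ⟨q, rfl⟩ := hz'
    rw [hA q ((key q).2 hz0), map_zero]
  · intro hA q hq
    have h1 : ι q ∈ T := by
      have : ι q ∈ range ι := ⟨q, rfl⟩
      rwa [hr] at this
    have h2 := hA _ h1 ((key q).1 hq)
    exact ι.injective (by rw [h2, map_zero])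

variable [MeasurableSpace E] [BorelSpace E]

lemma haar_euc (m : ℕ) : (μH[m] : Measure (EuclideanSpace ℝ (Fin m))).IsAddHaarMeasure := by
  have h1 : ((Module.finrank ℝ (EuclideanSpace ℝ (Fin m)) : ℕ) : ℝ) = m := by simp
  rw [← h1]
  infer_instance

/-- area formula for the projection between two planes -/
theorem plane_measure {T T₀ : Submodule ℝ E} (hT : Module.finrank ℝ T = m)
    (hT₀ : Module.finrank ℝ T₀ = m) (hJ : jac (proj T₀) (proj T) ≠ 0) (X : Set E) :
    ENNReal.ofReal (jac (proj T₀) (proj T)) * μH[m] ((T : Set E) ∩ proj T₀ ⁻¹' X) =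
      μH[m] ((T₀ : Set E) ∩ X) := by
  obtain ⟨ι₀, hr₀, ha₀, h₀⟩ := exists_param hT₀
  obtain ⟨ι, hr, ha, h⟩ := exists_param hT
  have hH := haar_euc m
  have e1 : (T : Set E) ∩ proj T₀ ⁻¹' X = ι '' ((pmap ι₀ ι).toLinearMap ⁻¹' (ι₀ ⁻¹' X)) := by
    ext z
    constructor
    · rintro ⟨hz, hzX⟩
      rw [← hr] at hz
      obtain ⟨q, rfl⟩ := hz
      refine ⟨q, ?_, rfl⟩
      rw [mem_preimage, h₀] at hzX
      exact hzX
    · rintro ⟨q, hq, rfl⟩
      refine ⟨by rw [← hr]; exact ⟨q, rfl⟩, ?_⟩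
      rw [mem_preimage, h₀]
      exact hq
  have e2 : (T₀ : Set E) ∩ X = ι₀ '' (ι₀ ⁻¹' X) := by
    rw [image_preimage_eq_inter_range, hr₀, inter_comm]
  rw [e1, e2, ι.isometry.hausdorffMeasure_image (Or.inl (Nat.cast_nonneg m)),
    ι₀.isometry.hausdorffMeasure_image (Or.inl (Nat.cast_nonneg m))]
  rw [jac_eq h₀ ha h] at hJ ⊢
  have hd : LinearMap.det (pmap ι₀ ι).toLinearMap ≠ 0 := by simpa using hJ
  rw [Measure.addHaar_preimage_linearMap _ hd, ← mul_assoc, ← ENNReal.ofReal_mul (abs_nonneg _),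
    ← abs_mul, mul_inv_cancel₀ hd, abs_one, ENNReal.ofReal_one, one_mul]

end planes

end Vale.Agent.P214.AREA
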