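import Mathlib
import Vale.Agent.P214.Bdl.B1
import Vale.Agent.P214.AREA.Jac

/-! # P214, block AREA: Lipschitz pieces -/

open MeasureTheory Set Filter Topology Metric
open scoped ENNReal NNReal RealInnerProductSpace

set_option linter.unusedSectionVars false

namespace Vale.Agent.P214.AREA

variable {E : Type*} [NormedAddCommGroup E] [InnerProductSpace ℝ E] [FiniteDimensional ℝ E]
  [MeasurableSpace E] [BorelSpace E]

/-- smooth bump -/
noncomputable def bmp (z : E) : ℝ := prof (‖z‖ ^ 2)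

lemma bmp_nonneg (z : E) : 0 ≤ bmp z := prof_nonneg _
lemma bmp_le_one (z : E) : bmp z ≤ 1 := prof_le_one (by positivity)
lemma continuous_bmp : Continuous (bmp : E → ℝ) := continuous_prof.comp (by fun_prop)
lemma bmp_eq_zero {z : E} (h : 1 ≤ ‖z‖) : bmp z = 0 := prof_of_one_le (by nlinarith)

lemma hasCompactSupport_bmp : HasCompactSupport (bmp : E → ℝ) := by
  refine HasCompactSupport.intro (isCompact_closedBall (0 : E) 1) ?_
  intro y hy
  rw [mem_closedBall, dist_zero_right, not_le] at hy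
  exact bmp_eq_zero hy.le

/-- test function of the complement of a cone around the range of `p` -/
noncomputable def cf (p : E →L[ℝ] E) (M : ℝ) (z : E) : ℝ :=
  min 1 (max 0 (2 - ‖z‖)) * min 1 (max 0 (12 * (‖z - p z‖ - M / 2 * ‖p z‖)))

lemma cf_nonneg (p : E →L[ℝ] E) (M : ℝ) (z : E) : 0 ≤ cf p M z := by
  unfold cf; positivity

lemma cf_le_one (p : E →L[ℝ] E) (M : ℝ) (z : E) : cf p M z ≤ 1 := by
  unfold cf
  have h1 : min 1 (max 0 (2 - ‖z‖)) ≤ 1 := min_le_left _ _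
  have h2 : min 1 (max 0 (12 * (‖z - p z‖ - M / 2 * ‖p z‖))) ≤ 1 := min_le_left _ _
  have h3 : 0 ≤ min 1 (max 0 (12 * (‖z - p z‖ - M / 2 * ‖p z‖))) := by positivity
  nlinarith

lemma continuous_cf (p : E →L[ℝ] E) (M : ℝ) : Continuous (cf p M) := by
  unfold cf; fun_prop

lemma hasCompactSupport_cf (p : E →L[ℝ] E) (M : ℝ) : HasCompactSupport (cf p M) := by
  refine HasCompactSupport.intro (isCompact_closedBall (0 : E) 2) ?_
  intro y hy
  rw [mem_closedBall, dist_zero_right, not_le] at hy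
  unfold cf
  rw [max_eq_left (by linarith), min_eq_right zero_le_one, zero_mul]

lemma cf_eq_zero (p : E →L[ℝ] E) {M : ℝ} {z : E} (h : ‖z - p z‖ ≤ M / 2 * ‖p z‖) :
    cf p M z = 0 := by
  unfold cf
  rw [max_eq_left (a := (0:ℝ)) (b := 12 * _) (by linarith), min_eq_right zero_le_one, mul_zero]

lemma cf_eq_one (p : E →L[ℝ] E) {M : ℝ} (hM : 1 ≤ M) {z : E} (h1 : 1 / 3 ≤ ‖z‖) (h2 : ‖z‖ ≤ 1)
    (h : M * ‖p z‖ ≤ ‖z - p z‖) : cf p M z = 1 := by
  unfold cf
  have h3 : ‖z‖ ≤ ‖z - p z‖ + ‖p z‖ := by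
    calc ‖z‖ = ‖(z - p z) + p z‖ := by rw [sub_add_cancel]
      _ ≤ _ := norm_add_le _ _
  have h4 : ‖p z‖ ≤ M * ‖p z‖ := by nlinarith [norm_nonneg (p z)]
  have h5 : 1 / 6 ≤ ‖z - p z‖ := by linarith
  have h6 : 1 ≤ 12 * (‖z - p z‖ - M / 2 * ‖p z‖) := by nlinarith
  rw [max_eq_right (by linarith), min_eq_left (by linarith), max_eq_right (by linarith),
    min_eq_left h6, mul_one]

lemma continuous_int_shift {μ : Measure E} [IsFiniteMeasure μ] {f : E → ℝ} (hf : Continuous f)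
    (h1 : ∀ z, |f z| ≤ 1) (r : ℝ) : Continuous fun y => ∫ z, f (r⁻¹ • (z - y)) ∂μ := by
  refine continuous_of_dominated (bound := fun _ => 1) ?_ ?_ (integrable_const _) ?_
  · intro y
    exact (by fun_prop : Continuous fun z => f (r⁻¹ • (z - y))).aestronglyMeasurable
  · intro y
    exact Eventually.of_forall fun z => by rw [Real.norm_eq_abs]; exact h1 _
  · exact Eventually.of_forall fun z => by fun_prop

lemma integrable_shift {μ : Measure E} [IsFiniteMeasure μ] {f : E → ℝ} (hf : Continuous f)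
    (h1 : ∀ z, |f z| ≤ 1) (r : ℝ) (y : E) : Integrable (fun z => f (r⁻¹ • (z - y))) μ := by
  refine Integrable.of_bound
    (by fun_prop : Continuous fun z => f (r⁻¹ • (z - y))).aestronglyMeasurable 1
    (Eventually.of_forall fun z => by rw [Real.norm_eq_abs]; exact h1 _)

/-- the pieces -/
def pc (m : ℕ) (μ : Measure E) (p : E →L[ℝ] E) (c ε : ℝ) (M : ℝ) (δ : ℝ) : Set E :=
  {y | ∀ r, 0 < r → r ≤ δ → c * r ^ m ≤ ∫ z, bmp (r⁻¹ • (z - y)) ∂μ ∧
    ∫ z, cf p M (r⁻¹ • (z - y)) ∂μ ≤ ε * r ^ m}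

lemma isClosed_pc (m : ℕ) (μ : Measure E) [IsFiniteMeasure μ] (p : E →L[ℝ] E) (c ε M δ : ℝ) :
    IsClosed (pc m μ p c ε M δ) := by
  unfold pc
  simp only [Set.ofPred_forall, Set.ofPred_and]
  refine isClosed_iInter fun r => isClosed_iInter fun h1 => isClosed_iInter fun h2 => ?_
  refine IsClosed.inter ?_ ?_
  · refine isClosed_le continuous_const (continuous_int_shift continuous_bmp ?_ r)
    intro z
    rw [abs_of_nonneg (bmp_nonneg z)]
    exact bmp_le_one z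
  · refine isClosed_le (continuous_int_shift (continuous_cf p M) ?_ r) continuous_const
    intro z
    rw [abs_of_nonneg (cf_nonneg p M z)]
    exact cf_le_one p M z

/-- the cone property of the pieces -/
lemma cone_pc {m : ℕ} {μ : Measure E} [IsFiniteMeasure μ] {p : E →L[ℝ] E}
    (hp : ∀ z, ‖p z‖ ≤ ‖z‖) (hp' : ∀ z, ‖z - p z‖ ≤ ‖z‖) {c ε M δ : ℝ} (hM : 1 ≤ M)
    (hε : ε < c * (1 / (9 * (M + 1))) ^ m) {y y' : E}
    (hy : y ∈ pc m μ p c ε M δ) (hy' : y' ∈ pc m μ p c ε M δ) (hd : ‖y' - y‖ ≤ δ / 2) :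
    ‖(y' - y) - p (y' - y)‖ ≤ 2 * M * ‖p (y' - y)‖ := by
  by_contra hcon
  rw [not_le] at hcon
  set w := y' - y with hw
  have hpw := norm_nonneg (p w)
  have hw0 : 0 < ‖w‖ := by
    rcases (norm_nonneg w).eq_or_lt with h | h
    · exfalso
      have : w = 0 := norm_eq_zero.1 h.symm
      rw [this] at hcon
      simp at hcon
    · exact h
  set ρ := ‖w‖ with hρ
  have h1 : ρ ≤ ‖w - p w‖ + ‖p w‖ := by
    calc ρ = ‖(w - p w) + p w‖ := by rw [sub_add_cancel]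
      _ ≤ _ := norm_add_le _ _
  have h2 : 2 / 3 * ρ ≤ ‖w - p w‖ := by nlinarith
  set η : ℝ := 1 / (6 * (M + 1)) with hη
  have hη0 : 0 < η := by positivity
  have hη1 : η * (M + 1) = 1 / 6 := by rw [hη]; field_simp
  have hη2 : η ≤ 1 / 12 := by nlinarith
  have hr0 : 0 < 3 / 2 * ρ := by positivity
  have hrδ : 3 / 2 * ρ ≤ δ := by linarith
  have hs0 : 0 < η * ρ := by positivity
  have hsδ : η * ρ ≤ δ := by nlinarith
  have key : ∫ z, bmp ((η * ρ)⁻¹ • (z - y')) ∂μ ≤ ∫ z, cf p M ((3 / 2 * ρ)⁻¹ • (z - y)) ∂μ := by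
    refine integral_mono (integrable_shift continuous_bmp (fun z => by
      rw [abs_of_nonneg (bmp_nonneg z)]; exact bmp_le_one z) _ _)
      (integrable_shift (continuous_cf p M) (fun z => by
      rw [abs_of_nonneg (cf_nonneg p M z)]; exact cf_le_one p M z) _ _) ?_
    intro z
    show bmp ((η * ρ)⁻¹ • (z - y')) ≤ cf p M ((3 / 2 * ρ)⁻¹ • (z - y))
    by_cases hz : η * ρ ≤ ‖z - y'‖
    · rw [bmp_eq_zero]
      · exact cf_nonneg _ _ _
      · rw [norm_smul, norm_inv, Real.norm_of_nonneg hs0.le, ← div_eq_inv_mul, le_div_iff₀ hs0,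
          one_mul]
        exact hz
    · rw [not_le] at hz
      rw [cf_eq_one p hM]
      · exact bmp_le_one _
      all_goals
        set v := z - y' with hv
        have huv : z - y = w + v := by rw [hv, hw]; abel
        have hvv := norm_nonneg v
      · rw [huv, norm_smul, norm_inv, Real.norm_of_nonneg hr0.le, ← div_eq_inv_mul,
          le_div_iff₀ hr0]
        have : ρ ≤ ‖w + v‖ + ‖v‖ := by
          calc ρ = ‖(w + v) - v‖ := by rw [add_sub_cancel_right]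
            _ ≤ _ := norm_sub_le _ _
        nlinarith
      · rw [huv, norm_smul, norm_inv, Real.norm_of_nonneg hr0.le, ← div_eq_inv_mul,
          div_le_one hr0]
        have : ‖w + v‖ ≤ ρ + ‖v‖ := norm_add_le _ _
        nlinarith
      · rw [huv, map_smul, ← smul_sub, norm_smul, norm_smul, ← mul_assoc, mul_comm M, mul_assoc]
        refine mul_le_mul_of_nonneg_left ?_ (norm_nonneg _)
        have e1 : ‖p (w + v)‖ ≤ ‖p w‖ + ‖v‖ := by
          rw [map_add]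
          exact (norm_add_le _ _).trans (by gcongr; exact hp v)
        have e2 : ‖w - p w‖ ≤ ‖w + v - p (w + v)‖ + ‖v‖ := by
          have : w - p w = (w + v - p (w + v)) - (v - p v) := by rw [map_add]; abel
          calc ‖w - p w‖ = ‖(w + v - p (w + v)) - (v - p v)‖ := by rw [← this]
            _ ≤ ‖w + v - p (w + v)‖ + ‖v - p v‖ := norm_sub_le _ _
            _ ≤ _ := by gcongr; exact hp' v
        nlinarith
  have h3 := (hy' _ hs0 hsδ).1
  have h4 := (hy _ hr0 hrδ).2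
  have h5 : c * (η * ρ) ^ m ≤ ε * (3 / 2 * ρ) ^ m := h3.trans (key.trans h4)
  have h6 : η * ρ = 1 / (9 * (M + 1)) * (3 / 2 * ρ) := by rw [hη]; field_simp; ring
  rw [h6, mul_pow, ← mul_assoc] at h5
  have h7 : 0 < (3 / 2 * ρ) ^ m := by positivity
  have := (mul_le_mul_iff_left₀ h7).1 h5
  linarith

/-- a transversal plane lies in a cone -/
lemma exists_cone (p : E →L[ℝ] E) (T : Submodule ℝ E) (h : ∀ z ∈ T, p z = 0 → z = 0) :
    ∃ M : ℕ, 1 ≤ M ∧ ∀ z ∈ T, ‖z‖ ≤ M * ‖p z‖ ∧ ‖z - p z‖ ≤ M * ‖p z‖ := by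
  have hinj : Function.Injective (p.toLinearMap.comp T.subtype) := by
    rw [← LinearMap.ker_eq_bot, LinearMap.ker_eq_bot']
    intro z hz
    exact Subtype.ext (h z z.2 hz)
  obtain ⟨K, hK, hanti⟩ := LinearMap.exists_antilipschitzWith (p.toLinearMap.comp T.subtype)
    (LinearMap.ker_eq_bot.2 hinj)
  refine ⟨⌈(K : ℝ)⌉₊ + 1, by omega, fun z hz => ?_⟩
  have h1 := hanti.le_mul_dist ⟨z, hz⟩ 0
  rw [map_zero, dist_zero_right, dist_zero_right] at h1
  have h2 : ‖z‖ ≤ K * ‖p z‖ := h1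
  have h3 : (K : ℝ) ≤ ⌈(K : ℝ)⌉₊ := Nat.le_ceil _
  have h4 := norm_nonneg (p z)
  push_cast
  refine ⟨by nlinarith, ?_⟩
  calc ‖z - p z‖ ≤ ‖z‖ + ‖p z‖ := norm_sub_le _ _
    _ ≤ _ := by nlinarith

/-- points with a transversal approximate tangent plane lie in a piece -/
lemma exists_mem_pc {m : ℕ} {μ : Measure E} {p : E →L[ℝ] E} {q : ℕ}
    (hq : 1 ≤ q) {y : E} {T : Submodule ℝ E} (hT : IsApproxTangent m μ y q T) {M : ℝ}
    (hM : ∀ z ∈ T, ‖z - p z‖ ≤ M / 2 * ‖p z‖) {ε : ℝ} (hε : 0 < ε) :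
    ∃ k : ℕ, y ∈ pc m μ p (cg m / 2) ε M (1 / (k + 1)) := by
  obtain ⟨hfin, hlim⟩ := hT
  have hcg := cg_pos m
  have h1 := hlim bmp continuous_bmp hasCompactSupport_bmp
  have h2 := hlim (cf p M) (continuous_cf p M) (hasCompactSupport_cf p M)
  have e1 : ∫ z in (T : Set E), bmp z ∂μH[m] = cg m := integral_plane hfin
  have e2 : ∫ z in (T : Set E), cf p M z ∂μH[m] = 0 := by
    rw [setIntegral_congr_fun (g := fun _ => (0:ℝ)) (Submodule.closed_of_finiteDimensional T).measurableSet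
      (fun z hz => cf_eq_zero p (hM z hz))]
    simp
  rw [e1] at h1
  rw [e2, mul_zero] at h2
  have hq' : (1:ℝ) ≤ q := by exact_mod_cast hq
  have h3 : cg m / 2 < q * cg m := by nlinarith
  have h4 := (h1.eventually (lt_mem_nhds h3)).and (h2.eventually (gt_mem_nhds hε))
  have h5 : ∀ᶠ r : ℝ in 𝓝[>] 0, 0 < r := self_mem_nhdsWithin
  obtain ⟨δ, hδ, hδ2⟩ := (eventually_nhdsWithin_iff.1 h4 |> Metric.eventually_nhds_iff.1)
  obtain ⟨k, hk⟩ := exists_nat_one_div_lt hδ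
  refine ⟨k, fun r hr hrk => ?_⟩
  have h6 := hδ2 (y := r) (by rw [Real.dist_eq, sub_zero, abs_of_pos hr]; linarith) hr
  have hrm : 0 < r ^ m := by positivity
  constructor
  · have := h6.1.le
    rwa [le_div_iff₀ hrm] at this
  · have := h6.2.le
    rwa [div_le_iff₀ hrm] at this

/-- **Countable cover by Lipschitz pieces.** -/
theorem exists_pieces (m : ℕ) (μ : Measure E) [IsFiniteMeasure μ] {p : E →L[ℝ] E}
    (hp : ∀ z, ‖p z‖ ≤ ‖z‖) (hp' : ∀ z, ‖z - p z‖ ≤ ‖z‖) :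
    ∃ (C : ℕ → Set E) (L : ℕ → ℝ), (∀ i, IsClosed (C i)) ∧ (∀ i, 1 ≤ L i) ∧
      (∀ i, ∀ y ∈ C i, ∀ y' ∈ C i, ‖y' - y‖ ≤ L i * ‖p y' - p y‖) ∧
      ∀ (y : E) (q : ℕ) (T : Submodule ℝ E), 1 ≤ q → IsApproxTangent m μ y q T →
        (∀ z ∈ T, p z = 0 → z = 0) → ∃ i, y ∈ C i ∧ ∀ z ∈ T, ‖z‖ ≤ L i * ‖p z‖ := by
  have hcg := cg_pos m
  let ε : ℕ → ℝ := fun M => cg m / 2 * (1 / (9 * ((2 * M + 2 : ℝ) + 1))) ^ m / 2
  have hε : ∀ M, 0 < ε M := fun M => by positivity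
  let D : ℕ × ℕ × ℕ → Set E := fun i =>
    pc m μ p (cg m / 2) (ε i.1) (2 * i.1 + 2) (1 / (i.2.1 + 1)) ∩
      closedBall (TopologicalSpace.denseSeq E i.2.2) (1 / (4 * (i.2.1 + 1)))
  let e : ℕ ≃ ℕ × ℕ × ℕ := (Denumerable.eqv (ℕ × ℕ × ℕ)).symm
  refine ⟨fun i => D (e i), fun i => 4 * ((e i).1 : ℝ) + 5, fun i => ?_, fun i => ?_, fun i => ?_, ?_⟩
  · exact (isClosed_pc _ _ _ _ _ _ _).inter isClosed_closedBall
  · have : (0:ℝ) ≤ (e i).1 := Nat.cast_nonneg _
    linarith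
  · intro y hy y' hy'
    set j := e i with hj
    have h1 : (0:ℝ) ≤ j.1 := Nat.cast_nonneg _
    have hd : ‖y' - y‖ ≤ 1 / (j.2.1 + 1) / 2 := by
      have h2 := mem_closedBall.1 hy.2
      have h3 := mem_closedBall.1 hy'.2
      rw [← dist_eq_norm]
      calc dist y' y ≤ dist y' _ + dist y _ := dist_triangle_right _ _ _
        _ ≤ 1 / (4 * ((j.2.1 : ℝ) + 1)) + 1 / (4 * (j.2.1 + 1)) := add_le_add h3 h2
        _ = _ := by field_simp; ring
    have h4 := cone_pc hp hp' (M := 2 * j.1 + 2) (by linarith) (half_lt_self (by positivity))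
      hy.1 hy'.1 hd
    have h5 : ‖y' - y‖ ≤ ‖(y' - y) - p (y' - y)‖ + ‖p (y' - y)‖ := by
      calc ‖y' - y‖ = ‖((y' - y) - p (y' - y)) + p (y' - y)‖ := by rw [sub_add_cancel]
        _ ≤ _ := norm_add_le _ _
    rw [← map_sub]
    nlinarith
  · intro y q T hq hT htr
    obtain ⟨M, hM1, hM⟩ := exists_cone p T htr
    have h1 : ∀ z ∈ T, ‖z - p z‖ ≤ (2 * (M:ℝ) + 2) / 2 * ‖p z‖ := fun z hz =>
      (hM z hz).2.trans (by
        have := norm_nonneg (p z)
        nlinarith)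
    obtain ⟨k, hk⟩ := exists_mem_pc hq hT h1 (hε M)
    obtain ⟨l, hl⟩ := (TopologicalSpace.denseRange_denseSeq E).exists_dist_lt y
      (ε := 1 / (4 * ((k:ℝ) + 1))) (by positivity)
    refine ⟨e.symm (M, k, l), ?_, ?_⟩
    · show y ∈ D (e (e.symm (M, k, l)))
      rw [Equiv.apply_symm_apply]
      exact ⟨hk, mem_closedBall.2 hl.le⟩
    · intro z hz
      show ‖z‖ ≤ (4 * ((e (e.symm (M, k, l))).1 : ℝ) + 5) * ‖p z‖
      rw [Equiv.apply_symm_apply]
      have := norm_nonneg (p z)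
      have h2 := (hM z hz).1
      have h3 : (0:ℝ) ≤ M := Nat.cast_nonneg _
      show ‖z‖ ≤ (4 * (M:ℝ) + 5) * ‖p z‖
      nlinarith

end Vale.Agent.P214.AREA
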