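import Mathlib
import Vale.Agent.P214.AREA.Pieces

/-! # P214, block AREA: the density of the projected measure -/

open MeasureTheory Set Filter Topology Metric
open scoped ENNReal NNReal RealInnerProductSpace

set_option linter.unusedSectionVars false

namespace Vale.Agent.P214.AREA

variable {E : Type*} [NormedAddCommGroup E] [InnerProductSpace ℝ E] [FiniteDimensional ℝ E]
  [MeasurableSpace E] [BorelSpace E] {m : ℕ}

/-- measure of the unit ball of `ℝ^m` -/
noncomputable def kap (m : ℕ) : ℝ := (μH[m] (closedBall (0 : EuclideanSpace ℝ (Fin m)) 1)).toReal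

lemma kap_pos (m : ℕ) : 0 < kap m := by
  have hH := haar_euc m
  unfold kap
  refine ENNReal.toReal_pos ?_ measure_closedBall_lt_top.ne
  exact (measure_closedBall_pos _ _ one_pos).ne'

/-- measure of balls in a plane -/
lemma plane_ball {T₀ : Submodule ℝ E} (hT₀ : Module.finrank ℝ T₀ = m) {x : E} (hx : x ∈ T₀)
    {s : ℝ} (hs : 0 ≤ s) :
    μH[m] ((T₀ : Set E) ∩ closedBall x s) = ENNReal.ofReal (s ^ m * kap m) := by
  obtain ⟨ι, hr, ha, h⟩ := exists_param hT₀
  have hH := haar_euc m
  have hx' : x ∈ range ι := by rw [hr]; exact hx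
  obtain ⟨q, rfl⟩ := hx'
  have e1 : (T₀ : Set E) ∩ closedBall (ι q) s = ι '' (closedBall q s) := by
    rw [← hr]
    ext z
    constructor
    · rintro ⟨⟨w, rfl⟩, hw⟩
      refine ⟨w, ?_, rfl⟩
      rwa [mem_closedBall, ι.isometry.dist_eq] at hw
    · rintro ⟨w, hw, rfl⟩
      refine ⟨⟨w, rfl⟩, ?_⟩
      rw [mem_closedBall, ι.isometry.dist_eq]
      exact hw
  rw [e1, ι.isometry.hausdorffMeasure_image (Or.inl (Nat.cast_nonneg m)),
    Measure.addHaar_closedBall' _ _ hs, ENNReal.ofReal_mul (by positivity)]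
  congr 1
  · simp
  · unfold kap
    rw [ENNReal.ofReal_toReal measure_closedBall_lt_top.ne]

/-- clamp to `[0,1]` -/
noncomputable def cl (t : ℝ) : ℝ := min 1 (max 0 t)
lemma cl_nonneg (t : ℝ) : 0 ≤ cl t := by unfold cl; positivity
lemma cl_le_one (t : ℝ) : cl t ≤ 1 := min_le_left _ _
lemma cl_one {t : ℝ} (h : 1 ≤ t) : cl t = 1 := by
  unfold cl; rw [max_eq_right (by linarith), min_eq_left h]
lemma cl_zero {t : ℝ} (h : t ≤ 0) : cl t = 0 := by
  unfold cl; rw [max_eq_left h, min_eq_right zero_le_one]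
lemma continuous_cl : Continuous cl := by unfold cl; fun_prop

/-- the cylinder -/
def cyl (p : E →L[ℝ] E) (L : ℝ) (y : E) (r : ℝ) : Set E := {z | ‖p (z - y)‖ ≤ r ∧ ‖z - y‖ ≤ 2 * L * r}

lemma measurableSet_cyl (p : E →L[ℝ] E) (L : ℝ) (y : E) (r : ℝ) : MeasurableSet (cyl p L y r) := by
  exact ((isClosed_le (f := fun z => ‖p (z - y)‖) (by fun_prop) continuous_const).inter
    (isClosed_le (f := fun z => ‖z - y‖) (by fun_prop) continuous_const)).measurableSet

lemma tendsto_cyl {μ : Measure E} [IsFiniteMeasure μ] {q : ℕ} {y : E} {T T₀ : Submodule ℝ E}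
    (hT₀ : Module.finrank ℝ T₀ = m) (hT : IsApproxTangent m μ y q T) {L : ℝ} (hL : 1 ≤ L)
    (hTL : ∀ z ∈ T, ‖z‖ ≤ L * ‖proj T₀ z‖) (hJ : 0 < jac (proj T₀) (proj T)) :
    Tendsto (fun r : ℝ => μ.real (cyl (proj T₀) L y r) / r ^ m) (𝓝[>] 0)
      (𝓝 (q * (kap m / jac (proj T₀) (proj T)))) := by
  set p := proj T₀ with hp
  set J := jac p (proj T) with hJdef
  obtain ⟨hfin, hlim⟩ := hT
  have hκ := kap_pos m
  -- plane measures
  have hpm : ∀ s : ℝ, 0 ≤ s → (μH[m] ((T : Set E) ∩ {z | ‖p z‖ ≤ s})) =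
      ENNReal.ofReal (s ^ m * kap m / J) := by
    intro s hs
    have h1 := plane_measure hfin hT₀ hJ.ne' (closedBall 0 s)
    rw [plane_ball hT₀ T₀.zero_mem hs] at h1
    have h2 : (T : Set E) ∩ {z | ‖p z‖ ≤ s} = (T : Set E) ∩ proj T₀ ⁻¹' closedBall 0 s := by
      ext z; simp [hp]
    rw [h2, ENNReal.ofReal_div_of_pos hJ, ← h1, mul_comm, ENNReal.mul_div_cancel_right]
    · exact (ENNReal.ofReal_pos.2 hJ).ne'
    · exact ENNReal.ofReal_ne_top
  have hTm : MeasurableSet (T : Set E) := (Submodule.closed_of_finiteDimensional T).measurableSet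
  have hsm : ∀ s : ℝ, MeasurableSet {z : E | ‖p z‖ ≤ s} := fun s =>
    (isClosed_le (by fun_prop) continuous_const).measurableSet
  -- test functions
  let up : ℝ → E → ℝ := fun δ z => cl ((1 + δ - ‖p z‖) / δ) * cl (2 * L + 1 - ‖z‖)
  let lo : ℝ → E → ℝ := fun δ z => cl ((1 - ‖p z‖) / δ) * cl (2 * L - ‖z‖)
  have hupc : ∀ δ, 0 < δ → Continuous (up δ) := fun δ hδ =>
    (continuous_cl.comp (by fun_prop)).mul (continuous_cl.comp (by fun_prop))
  have hloc : ∀ δ, 0 < δ → Continuous (lo δ) := fun δ hδ =>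
    (continuous_cl.comp (by fun_prop)).mul (continuous_cl.comp (by fun_prop))
  have hups : ∀ δ, HasCompactSupport (up δ) := fun δ => by
    refine HasCompactSupport.intro (isCompact_closedBall (0 : E) (2 * L + 1)) fun z hz => ?_
    rw [mem_closedBall, dist_zero_right, not_le] at hz
    exact mul_eq_zero_of_right _ (cl_zero (by linarith))
  have hlos : ∀ δ, HasCompactSupport (lo δ) := fun δ => by
    refine HasCompactSupport.intro (isCompact_closedBall (0 : E) (2 * L)) fun z hz => ?_
    rw [mem_closedBall, dist_zero_right, not_le] at hz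
    exact mul_eq_zero_of_right _ (cl_zero (by linarith))
  have hup1 : ∀ δ z, 0 ≤ up δ z ∧ up δ z ≤ 1 := fun δ z =>
    ⟨mul_nonneg (cl_nonneg _) (cl_nonneg _), mul_le_one₀ (cl_le_one _) (cl_nonneg _) (cl_le_one _)⟩
  have hlo1 : ∀ δ z, 0 ≤ lo δ z ∧ lo δ z ≤ 1 := fun δ z =>
    ⟨mul_nonneg (cl_nonneg _) (cl_nonneg _), mul_le_one₀ (cl_le_one _) (cl_nonneg _) (cl_le_one _)⟩
  -- limits of the plane integrals
  have hupT : ∀ δ, 0 < δ → ∫ z in (T : Set E), up δ z ∂μH[m] ≤ (1 + δ) ^ m * kap m / J := by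
    intro δ hδ
    have h1 : ∫ z in (T : Set E), up δ z ∂μH[m] ≤
        ∫ z in (T : Set E), {z : E | ‖p z‖ ≤ 1 + δ}.indicator (fun _ => (1:ℝ)) z ∂μH[m] := by
      refine integral_mono_of_nonneg (Eventually.of_forall fun z => (hup1 δ z).1) ?_ ?_
      · refine IntegrableOn.integrable_indicator ?_ (hsm _)
        refine integrableOn_const ?_
        rw [Measure.restrict_apply (hsm _), inter_comm, hpm _ (by linarith)]
        exact ENNReal.ofReal_ne_top
      · refine Eventually.of_forall fun z => ?_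
        by_cases hz : ‖p z‖ ≤ 1 + δ
        · rw [indicator_of_mem (show z ∈ {z : E | ‖p z‖ ≤ 1 + δ} from hz)]
          exact (hup1 δ z).2
        · rw [indicator_of_notMem (show z ∉ {z : E | ‖p z‖ ≤ 1 + δ} from hz)]
          show cl _ * _ ≤ 0
          rw [cl_zero (div_nonpos_of_nonpos_of_nonneg (by linarith [not_le.1 hz]) hδ.le), zero_mul]
    refine h1.trans (le_of_eq ?_)
    rw [integral_indicator (hsm _), setIntegral_const, smul_eq_mul, mul_one, Measure.real,
      Measure.restrict_apply (hsm _), inter_comm, hpm _ (by linarith),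
      ENNReal.toReal_ofReal (by positivity)]
  have hloT : ∀ δ, 0 < δ → δ ≤ 1 → (1 - δ) ^ m * kap m / J ≤ ∫ z in (T : Set E), lo δ z ∂μH[m] := by
    intro δ hδ hδ1
    have h0 : ∫ z in (T : Set E), {z : E | ‖p z‖ ≤ 1 - δ}.indicator (fun _ => (1:ℝ)) z ∂μH[m] =
        (1 - δ) ^ m * kap m / J := by
      rw [integral_indicator (hsm _), setIntegral_const, smul_eq_mul, mul_one, Measure.real,
        Measure.restrict_apply (hsm _), inter_comm, hpm _ (by linarith), ENNReal.toReal_ofReal]
      have : (0:ℝ) ≤ 1 - δ := by linarith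
      positivity
    rw [← h0]
    refine integral_mono_of_nonneg (Eventually.of_forall fun z => ?_) ?_ ?_
    · exact indicator_nonneg (fun _ _ => zero_le_one) _
    · -- integrability of `lo`
      have h2 : IntegrableOn (fun _ : E => (1:ℝ)) ((T : Set E) ∩ {z | ‖p z‖ ≤ 1}) μH[m] := by
        refine integrableOn_const ?_
        rw [hpm _ zero_le_one]
        exact ENNReal.ofReal_ne_top
      have h3 : Integrable ({z : E | ‖p z‖ ≤ 1}.indicator (fun _ => (1:ℝ)))
          ((μH[m] : Measure E).restrict T) := by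
        refine IntegrableOn.integrable_indicator ?_ (hsm _)
        rw [IntegrableOn, Measure.restrict_restrict (hsm _), inter_comm]
        exact h2
      refine h3.mono' (hloc δ hδ).aestronglyMeasurable (Eventually.of_forall fun z => ?_)
      rw [Real.norm_of_nonneg (hlo1 δ z).1]
      by_cases hz : ‖p z‖ ≤ 1
      · rw [indicator_of_mem (show z ∈ {z : E | ‖p z‖ ≤ 1} from hz)]
        exact (hlo1 δ z).2
      · rw [indicator_of_notMem (show z ∉ {z : E | ‖p z‖ ≤ 1} from hz)]
        show cl _ * _ ≤ 0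
        rw [cl_zero (div_nonpos_of_nonpos_of_nonneg (by linarith [not_le.1 hz]) hδ.le), zero_mul]
    · filter_upwards [ae_restrict_mem hTm] with z hzT
      by_cases hz : ‖p z‖ ≤ 1 - δ
      · rw [indicator_of_mem (show z ∈ {z : E | ‖p z‖ ≤ 1 - δ} from hz)]
        show 1 ≤ cl _ * cl _
        have h4 : ‖z‖ ≤ L := by
          have := hTL z hzT
          have h5 : ‖p z‖ ≤ 1 := by linarith
          nlinarith
        rw [cl_one (by rw [le_div_iff₀ hδ]; linarith), cl_one (by linarith), one_mul]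
      · rw [indicator_of_notMem (show z ∉ {z : E | ‖p z‖ ≤ 1 - δ} from hz)]
        exact (hlo1 δ z).1
  -- comparison with the measure of the cylinder
  have hcmp : ∀ δ, 0 < δ → ∀ r, 0 < r →
      ∫ z, lo δ (r⁻¹ • (z - y)) ∂μ ≤ μ.real (cyl p L y r) ∧
      μ.real (cyl p L y r) ≤ ∫ z, up δ (r⁻¹ • (z - y)) ∂μ := by
    intro δ hδ r hr
    have hind : μ.real (cyl p L y r) = ∫ z, (cyl p L y r).indicator (fun _ => (1:ℝ)) z ∂μ := by
      rw [integral_indicator (measurableSet_cyl _ _ _ _), setIntegral_const, smul_eq_mul, mul_one]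
    have hint : Integrable ((cyl p L y r).indicator (fun _ => (1:ℝ))) μ :=
      (integrable_const _).indicator (measurableSet_cyl _ _ _ _)
    have hn : ∀ w : E, ‖r⁻¹ • w‖ = ‖w‖ / r := fun w => by
      rw [norm_smul, norm_inv, Real.norm_of_nonneg hr.le, div_eq_inv_mul]
    rw [hind]
    constructor
    · refine integral_mono (integrable_shift (hloc δ hδ) (fun z => by
        rw [abs_of_nonneg (hlo1 δ z).1]; exact (hlo1 δ z).2) _ _) hint fun z => ?_
      show lo δ (r⁻¹ • (z - y)) ≤ (cyl p L y r).indicator (fun _ => (1:ℝ)) z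
      by_cases hz : z ∈ cyl p L y r
      · rw [indicator_of_mem hz]; exact (hlo1 _ _).2
      · rw [indicator_of_notMem hz]
        rw [cyl, mem_ofPred_eq, not_and_or, not_le, not_le] at hz
        show cl _ * cl _ ≤ 0
        rcases hz with hz | hz
        · rw [cl_zero (t := (1 - ‖p (r⁻¹ • (z - y))‖) / δ), zero_mul]
          refine div_nonpos_of_nonpos_of_nonneg ?_ hδ.le
          rw [map_smul, hn, sub_nonpos, le_div_iff₀ hr, one_mul]
          exact hz.le
        · rw [cl_zero (t := 2 * L - ‖r⁻¹ • (z - y)‖), mul_zero]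
          rw [hn, sub_nonpos, le_div_iff₀ hr]
          exact hz.le
    · refine integral_mono hint (integrable_shift (hupc δ hδ) (fun z => by
        rw [abs_of_nonneg (hup1 δ z).1]; exact (hup1 δ z).2) _ _) fun z => ?_
      show (cyl p L y r).indicator (fun _ => (1:ℝ)) z ≤ up δ (r⁻¹ • (z - y))
      by_cases hz : z ∈ cyl p L y r
      · rw [indicator_of_mem hz]
        show 1 ≤ cl _ * cl _
        have h1 : ‖p (r⁻¹ • (z - y))‖ ≤ 1 := by
          rw [map_smul, hn, div_le_one hr]; exact hz.1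
        have h2 : ‖r⁻¹ • (z - y)‖ ≤ 2 * L := by
          rw [hn, div_le_iff₀ hr]; exact hz.2
        rw [cl_one (by rw [le_div_iff₀ hδ]; linarith), cl_one (by linarith), one_mul]
      · rw [indicator_of_notMem hz]; exact (hup1 _ _).1
  -- conclusion
  have hq0 : (0:ℝ) ≤ q := Nat.cast_nonneg _
  have hcont1 : Tendsto (fun δ : ℝ => (q:ℝ) * ((1 + δ) ^ m * kap m / J)) (𝓝[>] 0)
      (𝓝 (q * (kap m / J))) := by
    have : Continuous fun δ : ℝ => (q:ℝ) * ((1 + δ) ^ m * kap m / J) := by fun_prop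
    have h2 := this.tendsto 0
    simp only [add_zero, one_pow, one_mul] at h2
    exact h2.mono_left nhdsWithin_le_nhds
  have hcont2 : Tendsto (fun δ : ℝ => (q:ℝ) * ((1 - δ) ^ m * kap m / J)) (𝓝[>] 0)
      (𝓝 (q * (kap m / J))) := by
    have : Continuous fun δ : ℝ => (q:ℝ) * ((1 - δ) ^ m * kap m / J) := by fun_prop
    have h2 := this.tendsto 0
    simp only [sub_zero, one_pow, one_mul] at h2
    exact h2.mono_left nhdsWithin_le_nhds
  have hpos : ∀ᶠ r : ℝ in 𝓝[>] 0, 0 < r := self_mem_nhdsWithin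
  rw [tendsto_order]
  constructor
  · intro a ha
    have h1 := (hcont2.eventually (lt_mem_nhds ha)).and
      (Ioc_mem_nhdsGT (zero_lt_one' ℝ))
    obtain ⟨δ, hδa, hδ⟩ := h1.exists
    have h2 := hlim (lo δ) (hloc δ hδ.1) (hlos δ)
    have h3 : a < q * ∫ z in (T : Set E), lo δ z ∂μH[m] :=
      hδa.trans_le (mul_le_mul_of_nonneg_left (hloT δ hδ.1 hδ.2) hq0)
    filter_upwards [h2.eventually (lt_mem_nhds h3), hpos] with r hr hr0
    refine hr.trans_le ?_
    have : 0 < r ^ m := by positivity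
    exact div_le_div_of_nonneg_right (hcmp δ hδ.1 r hr0).1 this.le
  · intro a ha
    have h1 := (hcont1.eventually (gt_mem_nhds ha)).and
      (Ioc_mem_nhdsGT (zero_lt_one' ℝ))
    obtain ⟨δ, hδa, hδ⟩ := h1.exists
    have h2 := hlim (up δ) (hupc δ hδ.1) (hups δ)
    have h3 : q * ∫ z in (T : Set E), up δ z ∂μH[m] < a :=
      (mul_le_mul_of_nonneg_left (hupT δ hδ.1) hq0).trans_lt hδa
    filter_upwards [h2.eventually (gt_mem_nhds h3), hpos] with r hr hr0
    refine lt_of_le_of_lt ?_ hr
    have : 0 < r ^ m := by positivity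
    exact div_le_div_of_nonneg_right (hcmp δ hδ.1 r hr0).2 this.le

/-- The density of the projected measure at the projection of a good point is the multiplicity. -/
lemma ratio_limit {μ : Measure E} [IsFiniteMeasure μ] {q : ℕ} {y : E} {T T₀ : Submodule ℝ E}
    (hT₀ : Module.finrank ℝ T₀ = m) (hT : IsApproxTangent m μ y q T) {L : ℝ} (hL : 1 ≤ L)
    (hTL : ∀ z ∈ T, ‖z‖ ≤ L * ‖proj T₀ z‖) (hJ : 0 < jac (proj T₀) (proj T))
    {S : Set E} (hS : MeasurableSet S) {J : E → ℝ} (hJm : Measurable J) (hJ0 : ∀ z, 0 ≤ J z)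
    (hJi : Integrable J μ) (hyS : y ∈ S) (hJy : J y = jac (proj T₀) (proj T))
    (hSL : ∀ y' ∈ S, ‖y' - y‖ ≤ L * ‖proj T₀ y' - proj T₀ y‖)
    (hLeb : Tendsto (fun r : ℝ => ⨍ z in closedBall y r, ‖S.indicator J z - S.indicator J y‖ ∂μ)
      (𝓝[>] 0) (𝓝 0)) :
    Tendsto (fun r : ℝ => (Measure.map (proj T₀) ((μ.restrict S).withDensity
        fun z => ENNReal.ofReal (J z))) (closedBall (proj T₀ y) r) /
      ((μH[m] : Measure E).restrict (T₀ : Set E)) (closedBall (proj T₀ y) r)) (𝓝[>] 0)
      (𝓝 (q : ℝ≥0∞)) := by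
  set p := proj T₀ with hp
  have hκ := kap_pos m
  have hpos : ∀ᶠ r : ℝ in 𝓝[>] 0, 0 < r := self_mem_nhdsWithin
  set G : E → ℝ := S.indicator J with hG
  have hG0 : ∀ z, 0 ≤ G z := fun z => indicator_nonneg (fun w _ => hJ0 w) z
  have hGm : Measurable G := hJm.indicator hS
  have hGi : Integrable G μ := hJi.indicator hS
  have hGy : G y = jac p (proj T) := by rw [hG, indicator_of_mem hyS, hJy]
  have hyT₀ : p y ∈ T₀ := by rw [hp]; unfold proj; exact Submodule.starProjection_apply_mem _ _
  -- (i)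
  have hσ : ∀ r, 0 < r → (Measure.map p ((μ.restrict S).withDensity
      fun z => ENNReal.ofReal (J z))) (closedBall (p y) r) =
      ENNReal.ofReal (∫ z in cyl p L y r, G z ∂μ) := by
    intro r hr
    have hm1 : MeasurableSet (p ⁻¹' closedBall (p y) r) := p.continuous.measurable isClosed_closedBall.measurableSet
    rw [Measure.map_apply p.continuous.measurable isClosed_closedBall.measurableSet,
      withDensity_apply _ hm1, Measure.restrict_restrict hm1,
      ofReal_integral_eq_lintegral_ofReal hGi.integrableOn (Eventually.of_forall hG0)]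
    have h1 : ∀ z, ENNReal.ofReal (G z) = S.indicator (fun z => ENNReal.ofReal (J z)) z := by
      intro z
      by_cases hz : z ∈ S
      · rw [indicator_of_mem hz, hG, indicator_of_mem hz]
      · rw [indicator_of_notMem hz, hG, indicator_of_notMem hz, ENNReal.ofReal_zero]
    simp_rw [h1]
    rw [lintegral_indicator hS, Measure.restrict_restrict hS]
    congr 2
    ext z
    constructor
    · rintro ⟨h2, h3⟩
      rw [mem_preimage, mem_closedBall, dist_eq_norm, ← map_sub] at h2
      refine ⟨h3, h2, ?_⟩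
      have h4 := hSL z h3
      rw [← map_sub] at h4
      nlinarith
    · rintro ⟨h2, h3⟩
      refine ⟨?_, h2⟩
      rw [mem_preimage, mem_closedBall, dist_eq_norm, ← map_sub]
      exact h3.1
  -- (ii)
  have hlam : ∀ r, 0 < r → ((μH[m] : Measure E).restrict (T₀ : Set E)) (closedBall (p y) r) =
      ENNReal.ofReal (r ^ m * kap m) := by
    intro r hr
    rw [Measure.restrict_apply isClosed_closedBall.measurableSet, inter_comm,
      plane_ball hT₀ hyT₀ hr.le]
  -- (iv)
  obtain ⟨C, hC0, hC⟩ : ∃ C : ℝ, 0 ≤ C ∧ ∀ᶠ r : ℝ in 𝓝[>] 0, μ.real (closedBall y (2 * L * r)) / r ^ m ≤ C := by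
    let f : E → ℝ := fun z => cl (2 * L + 1 - ‖z‖)
    have hf : Continuous f := continuous_cl.comp (by fun_prop)
    have hfs : HasCompactSupport f := by
      refine HasCompactSupport.intro (isCompact_closedBall (0 : E) (2 * L + 1)) fun z hz => ?_
      rw [mem_closedBall, dist_zero_right, not_le] at hz
      exact cl_zero (by linarith)
    have h1 := hT.2 f hf hfs
    have h2 : 0 ≤ q * ∫ z in (T : Set E), f z ∂μH[m] :=
      mul_nonneg (Nat.cast_nonneg _) (integral_nonneg fun z => cl_nonneg _)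
    refine ⟨q * ∫ z in (T : Set E), f z ∂μH[m] + 1, by linarith, ?_⟩
    filter_upwards [h1.eventually (gt_mem_nhds (lt_add_one _)), hpos] with r hr hr0
    refine le_trans ?_ hr.le
    refine div_le_div_of_nonneg_right ?_ (by positivity)
    have hind : μ.real (closedBall y (2 * L * r)) =
        ∫ z, (closedBall y (2 * L * r)).indicator (fun _ => (1:ℝ)) z ∂μ := by
      rw [integral_indicator isClosed_closedBall.measurableSet, setIntegral_const, smul_eq_mul,
        mul_one]
    rw [hind]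
    refine integral_mono ((integrable_const _).indicator isClosed_closedBall.measurableSet)
      (integrable_shift hf (fun z => by
        rw [abs_of_nonneg (cl_nonneg _)]; exact cl_le_one _) _ _) fun z => ?_
    show (closedBall y (2 * L * r)).indicator (fun _ => (1:ℝ)) z ≤ f (r⁻¹ • (z - y))
    by_cases hz : z ∈ closedBall y (2 * L * r)
    · rw [indicator_of_mem hz]
      show 1 ≤ cl _
      rw [cl_one]
      rw [norm_smul, norm_inv, Real.norm_of_nonneg hr0.le, ← div_eq_inv_mul]
      rw [mem_closedBall, dist_eq_norm] at hz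
      have : ‖z - y‖ / r ≤ 2 * L := by rw [div_le_iff₀ hr0]; exact hz
      linarith
    · rw [indicator_of_notMem hz]; exact cl_nonneg _
  -- (iii)
  have hdiff : ∀ r, 0 < r → |∫ z in cyl p L y r, G z ∂μ - G y * μ.real (cyl p L y r)| ≤
      μ.real (closedBall y (2 * L * r)) * ⨍ z in closedBall y (2 * L * r), ‖G z - G y‖ ∂μ := by
    intro r hr
    have hcm := measurableSet_cyl p L y r
    have h1 : ∫ z in cyl p L y r, G z ∂μ - G y * μ.real (cyl p L y r) =
        ∫ z in cyl p L y r, (G z - G y) ∂μ := by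
      rw [integral_sub hGi.integrableOn (integrable_const _).integrableOn, setIntegral_const,
        smul_eq_mul, mul_comm]
    have h2 : cyl p L y r ⊆ closedBall y (2 * L * r) := fun z hz => by
      rw [mem_closedBall, dist_eq_norm]; exact hz.2
    have h3 : μ.real (closedBall y (2 * L * r)) * ⨍ z in closedBall y (2 * L * r), ‖G z - G y‖ ∂μ =
        ∫ z in closedBall y (2 * L * r), ‖G z - G y‖ ∂μ := by
      have := measure_smul_setAverage (μ := μ) (fun z => ‖G z - G y‖)
        (s := closedBall y (2 * L * r)) (measure_ne_top _ _)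
      rwa [smul_eq_mul] at this
    rw [h1, h3]
    refine (abs_integral_le_integral_abs).trans ?_
    refine setIntegral_mono_set ?_ (Eventually.of_forall fun z => abs_nonneg _)
      (Eventually.of_forall h2)
    exact ((hGi.sub (integrable_const _)).norm).integrableOn
  -- limits
  have hbig : Tendsto (fun r : ℝ => ⨍ z in closedBall y (2 * L * r), ‖G z - G y‖ ∂μ)
      (𝓝[>] 0) (𝓝 0) := by
    refine hLeb.comp (tendsto_nhdsWithin_iff.2 ⟨?_, ?_⟩)
    · have : Continuous fun r : ℝ => 2 * L * r := by fun_prop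
      have h2 := this.tendsto 0
      rw [mul_zero] at h2
      exact h2.mono_left nhdsWithin_le_nhds
    · filter_upwards [hpos] with r hr
      exact mul_pos (by linarith) hr
  have herr : Tendsto (fun r : ℝ => (∫ z in cyl p L y r, G z ∂μ - G y * μ.real (cyl p L y r)) / r ^ m)
      (𝓝[>] 0) (𝓝 0) := by
    have h1 : Tendsto (fun r : ℝ => C * ⨍ z in closedBall y (2 * L * r), ‖G z - G y‖ ∂μ)
        (𝓝[>] 0) (𝓝 0) := by simpa using hbig.const_mul C
    refine squeeze_zero_norm' ?_ h1
    filter_upwards [hC, hpos] with r hr hr0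
    have hrm : 0 < r ^ m := by positivity
    rw [Real.norm_eq_abs, abs_div, abs_of_pos hrm, div_le_iff₀ hrm]
    refine (hdiff r hr0).trans ?_
    have h2 : μ.real (closedBall y (2 * L * r)) ≤ C * r ^ m := by rwa [div_le_iff₀ hrm] at hr
    have h3 : 0 ≤ ⨍ z in closedBall y (2 * L * r), ‖G z - G y‖ ∂μ := by
      rw [setAverage_eq]
      exact mul_nonneg (by positivity) (integral_nonneg fun z => norm_nonneg _)
    nlinarith
  have hmain : Tendsto (fun r : ℝ => (∫ z in cyl p L y r, G z ∂μ) / (r ^ m * kap m))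
      (𝓝[>] 0) (𝓝 q) := by
    have h1 := (herr.add ((tendsto_cyl hT₀ hT hL hTL hJ).const_mul (G y))).div_const (kap m)
    have h2 : (0 + G y * (q * (kap m / jac (proj T₀) (proj T)))) / kap m = q := by
      rw [hGy, ← hp]
      have := hJ.ne'
      field_simp
      ring
    rw [h2] at h1
    refine h1.congr' ?_
    filter_upwards [hpos] with r hr
    have : r ^ m ≠ 0 := by positivity
    field_simp
    ring
  have h4 : Tendsto (fun r : ℝ => ENNReal.ofReal ((∫ z in cyl p L y r, G z ∂μ) / (r ^ m * kap m)))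
      (𝓝[>] 0) (𝓝 (ENNReal.ofReal q)) := ENNReal.tendsto_ofReal hmain
  rw [ENNReal.ofReal_natCast] at h4
  refine h4.congr' ?_
  filter_upwards [hpos] with r hr
  rw [hσ r hr, hlam r hr, ENNReal.ofReal_div_of_pos (by positivity)]

end Vale.Agent.P214.AREA
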