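import Mathlib
import Vale.Agent.P214.AREA.Ratio

/-! # P214, block AREA: integer multiplicity over a reference plane -/

open MeasureTheory Set Filter Topology Metric
open scoped ENNReal NNReal RealInnerProductSpace

set_option linter.unusedSectionVars false

namespace Vale.Agent.P214.AREA

variable {E : Type*} [NormedAddCommGroup E] [InnerProductSpace ℝ E] [FiniteDimensional ℝ E]
  [MeasurableSpace E] [BorelSpace E] {m : ℕ}

lemma jac_le_one {T T₀ : Submodule ℝ E} (hT : Module.finrank ℝ T = m)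
    (hT₀ : Module.finrank ℝ T₀ = m) : jac (proj T₀) (proj T) ≤ 1 := by
  by_cases hJ : jac (proj T₀) (proj T) = 0
  · rw [hJ]; exact zero_le_one
  have h1 := plane_measure hT hT₀ hJ (closedBall 0 1)
  rw [plane_ball hT₀ T₀.zero_mem zero_le_one, one_pow, one_mul] at h1
  have h2 : ENNReal.ofReal (kap m) ≤ μH[m] ((T : Set E) ∩ proj T₀ ⁻¹' closedBall 0 1) := by
    have h5 := plane_ball hT T.zero_mem zero_le_one
    rw [one_pow, one_mul] at h5
    rw [← h5]
    refine measure_mono (inter_subset_inter_right _ fun z hz => ?_)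
    rw [mem_preimage, mem_closedBall, dist_zero_right] at *
    refine le_trans ?_ hz
    unfold proj
    exact Submodule.norm_starProjection_apply_le _ _
  have h3 : ENNReal.ofReal (jac (proj T₀) (proj T)) * ENNReal.ofReal (kap m) ≤
      1 * ENNReal.ofReal (kap m) := by
    rw [one_mul]
    calc _ ≤ _ := mul_le_mul_right h2 _
      _ = _ := h1
  have hκ := kap_pos m
  have h4 := (ENNReal.mul_le_mul_iff_left (ENNReal.ofReal_pos.2 hκ).ne' ENNReal.ofReal_ne_top).1 h3
  rwa [ENNReal.ofReal_le_one] at h4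

instance locFin (T₀ : Submodule ℝ E) [hT₀ : Fact (Module.finrank ℝ T₀ = m)] :
    IsLocallyFiniteMeasure ((μH[m] : Measure E).restrict (T₀ : Set E)) := by
  refine ⟨fun x => ⟨closedBall x 1, closedBall_mem_nhds x one_pos, ?_⟩⟩
  rw [Measure.restrict_apply isClosed_closedBall.measurableSet, inter_comm]
  refine lt_of_le_of_lt (measure_mono (inter_subset_inter_right _
    (closedBall_subset_closedBall' (ε₂ := ‖x‖ + 1) (y := (0:E)) ?_))) ?_
  · rw [dist_zero_right]; linarith
  · rw [plane_ball hT₀.out T₀.zero_mem (by positivity)]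
    exact ENNReal.ofReal_lt_top

/-- the projected measure -/
noncomputable def sig (μ : Measure E) (p : E →L[ℝ] E) (J : E → ℝ) (S : Set E) : Measure E :=
  Measure.map p ((μ.restrict S).withDensity fun z => ENNReal.ofReal (J z))

lemma sig_ac {μ : Measure E} (hac : μ ≪ (μH[m] : Measure E)) {T₀ : Submodule ℝ E}
    {S : Set E} {J : E → ℝ} {L : ℝ} (hL : 0 ≤ L)
    (hSL : ∀ y ∈ S, ∀ y' ∈ S, ‖y' - y‖ ≤ L * ‖proj T₀ y' - proj T₀ y‖) :
    sig μ (proj T₀) J S ≪ (μH[m] : Measure E).restrict (T₀ : Set E) := by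
  refine Measure.AbsolutelyContinuous.mk fun X hX hX0 => ?_
  have hpm : Measurable (proj T₀ : E → E) := (proj T₀).continuous.measurable
  have hm1 : MeasurableSet (proj T₀ ⁻¹' X) := hpm hX
  unfold sig
  rw [Measure.map_apply hpm hX]
  refine withDensity_absolutelyContinuous _ _ ?_
  rw [Measure.restrict_apply hm1]
  refine hac ?_
  rw [Measure.restrict_apply hX] at hX0
  -- Lipschitz inverse
  let f : S → E := fun y => proj T₀ y
  have hf : AntilipschitzWith (Real.toNNReal L) f := by
    refine AntilipschitzWith.of_le_mul_dist fun y y' => ?_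
    rw [Real.coe_toNNReal _ hL, Subtype.dist_eq, dist_eq_norm, dist_eq_norm]
    exact hSL y' y'.2 y y.2
  have h1 : proj T₀ ⁻¹' X ∩ S = Subtype.val '' (f ⁻¹' X) := by
    ext z
    constructor
    · rintro ⟨h2, h3⟩; exact ⟨⟨z, h3⟩, h2, rfl⟩
    · rintro ⟨w, hw, rfl⟩; exact ⟨hw, w.2⟩
  rw [h1, isometry_subtype_coe.hausdorffMeasure_image (Or.inl (Nat.cast_nonneg m))]
  refine le_antisymm ?_ zero_le
  refine (hf.le_hausdorffMeasure_image (Nat.cast_nonneg m) _).trans ?_
  have h2 : μH[m] (f '' (f ⁻¹' X)) ≤ 0 := by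
    rw [← hX0]
    refine measure_mono ?_
    rintro _ ⟨w, hw, rfl⟩
    refine ⟨hw, ?_⟩
    show proj T₀ (w : E) ∈ (T₀ : Set E)
    unfold proj
    exact Submodule.starProjection_apply_mem _ _
  rw [le_zero_iff.1 h2, mul_zero]

/-- one Lipschitz piece -/
lemma piece_mult {μ : Measure E} [IsFiniteMeasure μ] (hac : μ ≪ (μH[m] : Measure E))
    {T₀ : Submodule ℝ E} (hT₀ : Module.finrank ℝ T₀ = m) {S : Set E} {J : E → ℝ} {L : ℝ}
    (hL : 1 ≤ L) (hS : MeasurableSet S)
    (hSL : ∀ y ∈ S, ∀ y' ∈ S, ‖y' - y‖ ≤ L * ‖proj T₀ y' - proj T₀ y‖)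
    (hJm : Measurable J) (hJ0 : ∀ z, 0 ≤ J z) (hJ1 : ∀ z, J z ≤ 1)
    (htan : ∀ᵐ y ∂μ, y ∈ S → ∃ (q : ℕ) (T : Submodule ℝ E), IsApproxTangent m μ y q T ∧
      J y = jac (proj T₀) (proj T) ∧ 0 < jac (proj T₀) (proj T) ∧
      ∀ z ∈ T, ‖z‖ ≤ L * ‖proj T₀ z‖) :
    ∃ N : E → ℕ, Measurable N ∧ sig μ (proj T₀) J S =
      ((μH[m] : Measure E).restrict (T₀ : Set E)).withDensity fun x => (N x : ℝ≥0∞) := by
  have : Fact (Module.finrank ℝ T₀ = m) := ⟨hT₀⟩
  set p := proj T₀ with hp
  have hpm : Measurable (p : E → E) := p.continuous.measurable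
  set lam := (μH[m] : Measure E).restrict (T₀ : Set E) with hlam
  have hJi : Integrable J μ := Integrable.of_bound hJm.aestronglyMeasurable 1
    (Eventually.of_forall fun z => by rw [Real.norm_of_nonneg (hJ0 z)]; exact hJ1 z)
  set sg := sig μ p J S with hsg
  have hfin : IsFiniteMeasure sg := by
    rw [hsg]
    unfold sig
    have : IsFiniteMeasure ((μ.restrict S).withDensity fun z => ENNReal.ofReal (J z)) := by
      refine isFiniteMeasure_withDensity ?_
      refine ((lintegral_mono (g := fun _ => 1) fun z => ?_).trans_lt ?_).ne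
      · exact ENNReal.ofReal_le_one.2 (hJ1 z)
      · rw [lintegral_const, one_mul]; exact measure_lt_top _ _
    infer_instance
  have hsac : sg ≪ lam := sig_ac hac (by linarith) hSL
  have hbes := Besicovitch.ae_tendsto_rnDeriv sg lam
  set n := sg.rnDeriv lam with hn
  have hnm : Measurable n := Measure.measurable_rnDeriv _ _
  have hwd : lam.withDensity n = sg := Measure.withDensity_rnDeriv_eq _ _ hsac
  -- Lebesgue points
  have hGi : LocallyIntegrable (S.indicator J) μ := (hJi.indicator hS).locallyIntegrable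
  have hLeb : ∀ᵐ y ∂μ, Tendsto (fun r : ℝ => ⨍ z in closedBall y r,
      ‖S.indicator J z - S.indicator J y‖ ∂μ) (𝓝[>] 0) (𝓝 0) := by
    filter_upwards [(Besicovitch.vitaliFamily μ).ae_tendsto_average_norm_sub hGi] with y hy
    exact hy.comp (Besicovitch.tendsto_filterAt μ y)
  -- the density is an integer almost everywhere
  have hint : ∀ᵐ x ∂sg, ∃ k : ℕ, n x = k := by
    have h1 : ∀ᵐ x ∂sg, Tendsto (fun r : ℝ => sg (closedBall x r) / lam (closedBall x r)) (𝓝[>] 0)
        (𝓝 (n x)) := hsac.ae_le hbes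
    have hZ : MeasurableSet {x | ∃ k : ℕ, n x = k} := by
      have : {x | ∃ k : ℕ, n x = k} = ⋃ k : ℕ, n ⁻¹' {(k : ℝ≥0∞)} := by
        ext x; simp
      rw [this]
      exact MeasurableSet.iUnion fun k => hnm (measurableSet_singleton _)
    have h1' : ∀ᵐ y ∂((μ.restrict S).withDensity fun z => ENNReal.ofReal (J z)),
        Tendsto (fun r : ℝ => sg (closedBall (p y) r) / lam (closedBall (p y) r)) (𝓝[>] 0)
        (𝓝 (n (p y))) := ae_of_ae_map hpm.aemeasurable h1
    rw [hsg]
    unfold sig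
    rw [ae_map_iff hpm.aemeasurable hZ]
    have h2 : ∀ᵐ y ∂μ.restrict S, y ∈ S ∧ (∃ (q : ℕ) (T : Submodule ℝ E),
        IsApproxTangent m μ y q T ∧
        J y = jac (proj T₀) (proj T) ∧ 0 < jac (proj T₀) (proj T) ∧
        ∀ z ∈ T, ‖z‖ ≤ L * ‖proj T₀ z‖) ∧ Tendsto (fun r : ℝ => ⨍ z in closedBall y r,
        ‖S.indicator J z - S.indicator J y‖ ∂μ) (𝓝[>] 0) (𝓝 0) := by
      filter_upwards [ae_restrict_mem hS, ae_restrict_of_ae htan, ae_restrict_of_ae hLeb]
        with y h3 h4 h5
      exact ⟨h3, h4 h3, h5⟩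
    have h3 := (withDensity_absolutelyContinuous (μ.restrict S)
      (fun z => ENNReal.ofReal (J z))).ae_le h2
    filter_upwards [h1', h3] with y hy1 hy2
    obtain ⟨hyS, ⟨q, T, hT, hJy, hJp, hTL⟩, hyL⟩ := hy2
    have h4 := ratio_limit hT₀ hT hL hTL hJp hS hJm hJ0 hJi hyS hJy (hSL y hyS) hyL
    exact ⟨q, tendsto_nhds_unique hy1 h4⟩
  have hint2 : ∀ᵐ x ∂lam, ∃ k : ℕ, n x = k := by
    set Z : Set E := {x | ¬ ∃ k : ℕ, n x = k} with hZdef
    have hZm : MeasurableSet Z := by
      have : {x | ∃ k : ℕ, n x = k} = ⋃ k : ℕ, n ⁻¹' {(k : ℝ≥0∞)} := by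
        ext x; simp
      have h2 : MeasurableSet {x | ∃ k : ℕ, n x = k} := by
        rw [this]
        exact MeasurableSet.iUnion fun k => hnm (measurableSet_singleton _)
      exact h2.compl
    have h1 : sg Z = 0 := hint
    rw [← hwd, withDensity_apply _ hZm, lintegral_eq_zero_iff hnm] at h1
    have h2 : ∀ᵐ x ∂lam, x ∈ Z → n x = 0 := (ae_restrict_iff' hZm).1 h1
    filter_upwards [h2] with x hx
    by_contra hcon
    exact hcon ⟨0, by rw [hx hcon, Nat.cast_zero]⟩
  refine ⟨fun x => ⌊(n x).toReal⌋₊, Nat.measurable_floor.comp hnm.ennreal_toReal, ?_⟩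
  rw [← hwd]
  refine withDensity_congr_ae ?_
  filter_upwards [hint2] with x hx
  obtain ⟨k, hk⟩ := hx
  rw [hk, ENNReal.toReal_natCast, Nat.floor_natCast]

lemma tsum_nat {a : ℕ → ℕ} (h : ∑' i, (a i : ℝ≥0∞) ≠ ⊤) : ∃ k : ℕ, ∑' i, (a i : ℝ≥0∞) = k := by
  have h1 := ENNReal.finite_const_le_of_tsum_ne_top h one_ne_zero
  refine ⟨∑ i ∈ h1.toFinset, a i, ?_⟩
  rw [tsum_eq_sum (s := h1.toFinset)]
  · push_cast; rfl
  · intro i hi
    rw [Set.Finite.mem_toFinset] at hi
    have h2 : ¬ ((1 : ℝ≥0∞) ≤ (a i : ℝ≥0∞)) := hi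
    rw [← Nat.cast_one, Nat.cast_le] at h2
    have h3 : a i = 0 := by omega
    rw [h3, Nat.cast_zero]

/-- **Integer multiplicity over a reference plane** (abstract form). -/
theorem exists_mult {μ : Measure E} [IsFiniteMeasure μ] (hac : μ ≪ (μH[m] : Measure E))
    {P : E → E →L[ℝ] E} (hP : AEStronglyMeasurable P μ) {O : Set E}
    (htan : ∀ᵐ y ∂μ, y ∈ O → ∃ (q : ℕ) (T : Submodule ℝ E), 1 ≤ q ∧ P y = proj T ∧
      IsApproxTangent m μ y q T)
    {T₀ : Submodule ℝ E} (hT₀ : Module.finrank ℝ T₀ = m) {B : Set E} (hB : MeasurableSet B)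
    (hBO : B ⊆ O) :
    ∃ N : E → ℕ, Measurable N ∧
      sig μ (proj T₀) (fun y => jac (proj T₀) (P y)) B =
      ((μH[m] : Measure E).restrict (T₀ : Set E)).withDensity fun x => (N x : ℝ≥0∞) := by
  have hfact : Fact (Module.finrank ℝ T₀ = m) := ⟨hT₀⟩
  set p := proj T₀ with hp
  have hpm : Measurable (p : E → E) := p.continuous.measurable
  set lam := (μH[m] : Measure E).restrict (T₀ : Set E) with hlam
  have hpn : ∀ z, ‖p z‖ ≤ ‖z‖ := fun z => by
    rw [hp]; unfold proj; exact Submodule.norm_starProjection_apply_le _ _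
  have hpn' : ∀ z, ‖z - p z‖ ≤ ‖z‖ := fun z => by
    have : z - p z = proj T₀ᗮ z := by
      rw [hp]; unfold proj
      rw [Submodule.starProjection_orthogonal']
      rfl
    rw [this]
    unfold proj
    exact Submodule.norm_starProjection_apply_le _ _
  -- measurable version
  set P' := hP.mk P with hP'
  have hP'm : Measurable P' := hP.stronglyMeasurable_mk.measurable
  have hPP' : ∀ᵐ y ∂μ, P y = P' y := hP.ae_eq_mk
  set J : E → ℝ := fun y => min 1 (jac p (P' y)) with hJ
  have hJm : Measurable J := measurable_const.min ((continuous_jac p).measurable.comp hP'm)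
  have hJ0 : ∀ z, 0 ≤ J z := fun z => le_min zero_le_one (jac_nonneg _ _)
  have hJ1 : ∀ z, J z ≤ 1 := fun z => min_le_left _ _
  have htan' : ∀ᵐ y ∂μ, y ∈ B → ∃ (q : ℕ) (T : Submodule ℝ E), 1 ≤ q ∧ P' y = proj T ∧
      IsApproxTangent m μ y q T ∧ J y = jac p (proj T) ∧ P y = P' y := by
    filter_upwards [htan, hPP'] with y h1 h2 hyB
    obtain ⟨q, T, hq, hPT, hT⟩ := h1 (hBO hyB)
    refine ⟨q, T, hq, by rw [← h2, hPT], hT, ?_, h2⟩
    show min 1 (jac p (P' y)) = _
    rw [← h2, hPT, min_eq_right (jac_le_one hT.1 hT₀)]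
  obtain ⟨C, L, hCc, hL1, hCL, hcov⟩ := exists_pieces m μ hpn hpn'
  -- pieces with tangential condition
  let G : ℕ → Set E := fun i => P' ⁻¹' {Q | ∀ z, ‖Q z‖ ≤ L i * ‖p (Q z)‖}
  have hGm : ∀ i, MeasurableSet (G i) := fun i => by
    refine hP'm (IsClosed.measurableSet ?_)
    simp only [Set.ofPred_forall]
    refine isClosed_iInter fun z => isClosed_le (by fun_prop) (by fun_prop)
  let D : ℕ → Set E := fun i => C i ∩ G i
  have hDm : ∀ i, MeasurableSet (D i) := fun i => (hCc i).measurableSet.inter (hGm i)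
  let B' : Set E := B ∩ {y | 0 < J y}
  have hB' : MeasurableSet B' := hB.inter (measurableSet_lt measurable_const hJm)
  let S : ℕ → Set E := fun i => B' ∩ disjointed D i
  have hSm : ∀ i, MeasurableSet (S i) := fun i => hB'.inter (MeasurableSet.disjointed hDm i)
  have hSD : ∀ i, S i ⊆ D i := fun i => inter_subset_right.trans (disjointed_subset D i)
  have hSB : ∀ i, S i ⊆ B := fun i => inter_subset_left.trans inter_subset_left
  have hSdisj : ∀ i j, i ≠ j → Disjoint (S i) (S j) := fun i j hij =>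
    (disjoint_disjointed D hij).mono inter_subset_right inter_subset_right
  have htr : ∀ᵐ y ∂μ, y ∈ B → 0 < J y → y ∈ ⋃ i, S i := by
    filter_upwards [htan'] with y h1 hyB hJy
    obtain ⟨q, T, hq, hPT, hT, hJT, -⟩ := h1 hyB
    have hJy' := hJy
    rw [hJT] at hJy
    have h2 := (jac_pos_iff hT.1 hT₀).1 hJy
    obtain ⟨i, hi, hi2⟩ := hcov y q T hq hT h2
    have h3 : y ∈ D i := by
      refine ⟨hi, fun z => ?_⟩
      rw [hPT]
      exact hi2 _ (by unfold proj; exact Submodule.starProjection_apply_mem _ _)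
    have h4 : y ∈ ⋃ i, disjointed D i := by
      rw [iUnion_disjointed]; exact mem_iUnion.2 ⟨i, h3⟩
    rw [← inter_iUnion]
    exact ⟨⟨hyB, hJy'⟩, h4⟩
  -- multiplicities of the pieces
  have hpiece : ∀ i, ∃ N : E → ℕ, Measurable N ∧ sig μ p J (S i) =
      lam.withDensity fun x => (N x : ℝ≥0∞) := by
    intro i
    refine piece_mult hac hT₀ (hL1 i) (hSm i) ?_ hJm hJ0 hJ1 ?_
    · intro y hy y' hy'
      exact hCL i y (hSD i hy).1 y' (hSD i hy').1
    · filter_upwards [htan'] with y h1 hyS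
      obtain ⟨q, T, hq, hPT, hT, hJT, -⟩ := h1 (hSB i hyS)
      refine ⟨q, T, hT, hJT, ?_, ?_⟩
      · rw [← hJT]; exact hyS.1.2
      · intro z hz
        have h2 := (hSD i hyS).2 z
        rw [hPT] at h2
        have h3 : proj T z = z := by
          unfold proj; exact Submodule.starProjection_eq_self_iff.2 hz
        rwa [h3] at h2
  choose N hNm hN using hpiece
  set f : E → ℝ≥0∞ := fun z => ENNReal.ofReal (J z) with hf
  have hfm : Measurable f := hJm.ennreal_ofReal
  have hNNm : ∀ i, Measurable fun x => (N i x : ℝ≥0∞) := fun i =>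
    (Measurable.of_discrete (f := fun k : ℕ => (k : ℝ≥0∞))).comp (hNm i)
  -- decomposition
  have hdec : sig μ p (fun y => jac p (P y)) B = lam.withDensity (∑' i, fun x => (N i x : ℝ≥0∞)) := by
    rw [withDensity_tsum hNNm]
    have h1 : ∀ i, sig μ p J (S i) = Measure.map p (μ.withDensity ((S i).indicator f)) := by
      intro i
      unfold sig
      rw [withDensity_indicator (hSm i)]
    simp_rw [← hN, h1]
    rw [← Measure.map_sum hpm.aemeasurable, ← withDensity_tsum (fun i => hfm.indicator (hSm i))]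
    unfold sig
    congr 1
    rw [← withDensity_indicator hB]
    refine withDensity_congr_ae ?_
    filter_upwards [htan', htr] with y hy1 hy2
    rw [tsum_apply (Pi.summable.2 fun _ => ENNReal.summable)]
    by_cases hyB : y ∈ B
    · obtain ⟨q, T, hq, hPT, hT, hJT, hPP⟩ := hy1 hyB
      rw [indicator_of_mem hyB]
      have h3 : ENNReal.ofReal (jac p (P y)) = f y := by
        rw [hf]
        show _ = ENNReal.ofReal (J y)
        rw [hJT, hPP, hPT]
      rw [h3]
      by_cases hJy : 0 < J y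
      · obtain ⟨i, hi⟩ := mem_iUnion.1 (hy2 hyB hJy)
        rw [tsum_eq_single i, indicator_of_mem hi]
        intro j hj
        exact indicator_of_notMem (fun hjy => (hSdisj j i hj).le_bot ⟨hjy, hi⟩) _
      · have h4 : f y = 0 := by
          rw [hf]
          exact ENNReal.ofReal_of_nonpos (not_lt.1 hJy)
        rw [h4]
        symm
        rw [ENNReal.tsum_eq_zero]
        intro i
        by_cases hi : y ∈ S i
        · rw [indicator_of_mem hi, h4]
        · rw [indicator_of_notMem hi]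
    · rw [indicator_of_notMem hyB]
      symm
      rw [ENNReal.tsum_eq_zero]
      intro i
      exact indicator_of_notMem (fun h => hyB (hSB i h)) _
  -- finiteness
  have hfin : IsFiniteMeasure (sig μ p (fun y => jac p (P y)) B) := by
    refine ⟨?_⟩
    unfold sig
    rw [Measure.map_apply hpm MeasurableSet.univ, preimage_univ, withDensity_apply _ MeasurableSet.univ,
      Measure.restrict_univ]
    refine lt_of_le_of_lt (lintegral_mono_ae (g := fun _ => 1) ?_) ?_
    · filter_upwards [ae_restrict_mem hB, ae_restrict_of_ae htan'] with y hyB hy1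
      obtain ⟨q, T, hq, hPT, hT, hJT, hPP⟩ := hy1 hyB
      rw [hPP, hPT]
      exact ENNReal.ofReal_le_one.2 (jac_le_one hT.1 hT₀)
    · rw [lintegral_const, one_mul]; exact measure_lt_top _ _
  have hsum_m : Measurable (∑' i, fun x => (N i x : ℝ≥0∞)) := by
    have : (∑' i, fun x => (N i x : ℝ≥0∞)) = fun x => ∑' i, (N i x : ℝ≥0∞) := by
      ext x
      rw [tsum_apply (Pi.summable.2 fun _ => ENNReal.summable)]
    rw [this]
    exact Measurable.tsum hNNm
  have hlt : ∀ᵐ x ∂lam, (∑' i, fun x => (N i x : ℝ≥0∞)) x < ⊤ := by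
    refine ae_lt_top hsum_m ?_
    have h1 : (sig μ p (fun y => jac p (P y)) B) univ < ⊤ := measure_lt_top _ _
    rw [hdec, withDensity_apply _ MeasurableSet.univ, Measure.restrict_univ] at h1
    exact h1.ne
  refine ⟨fun x => ⌊((∑' i, fun x => (N i x : ℝ≥0∞)) x).toReal⌋₊,
    Nat.measurable_floor.comp hsum_m.ennreal_toReal, ?_⟩
  rw [hdec]
  refine withDensity_congr_ae ?_
  filter_upwards [hlt] with x hx
  rw [tsum_apply (Pi.summable.2 fun _ => ENNReal.summable)] at hx ⊢
  obtain ⟨k, hk⟩ := tsum_nat (a := fun i => N i x) hx.ne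
  rw [hk, ENNReal.toReal_natCast, Nat.floor_natCast]

/-- approximate tangents are local -/
lemma isApproxTangent_restrict {μ : Measure E} {y x : E} {R : ℝ} (hy : y ∈ ball x R) {q : ℕ}
    {T : Submodule ℝ E} (h : IsApproxTangent m μ y q T) :
    IsApproxTangent m (μ.restrict (closedBall x R)) y q T := by
  refine ⟨h.1, fun f hf hfs => ?_⟩
  refine (h.2 f hf hfs).congr' ?_
  obtain ⟨K, hK⟩ := hfs.isBounded.subset_closedBall (0 : E)
  have hpos : 0 < R - dist y x := by rw [mem_ball] at hy; linarith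
  have hc : Tendsto (fun r : ℝ => |K| * r) (𝓝[>] 0) (𝓝 0) := by
    have : Continuous fun r : ℝ => |K| * r := by fun_prop
    have h2 := this.tendsto 0
    rw [mul_zero] at h2
    exact h2.mono_left nhdsWithin_le_nhds
  filter_upwards [hc.eventually (gt_mem_nhds hpos), self_mem_nhdsWithin] with r hr hr0
  congr 1
  symm
  refine setIntegral_eq_integral_of_forall_compl_eq_zero fun z hz => ?_
  by_contra hne
  have h3 : r⁻¹ • (z - y) ∈ closedBall (0 : E) K := hK (subset_tsupport _ hne)
  have hr0' : 0 < r := hr0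
  rw [mem_closedBall, dist_zero_right, norm_smul, norm_inv, Real.norm_of_nonneg hr0'.le,
    ← div_eq_inv_mul, div_le_iff₀ hr0'] at h3
  refine hz (mem_closedBall.2 ?_)
  have h4 : dist z x ≤ dist z y + dist y x := dist_triangle _ _ _
  rw [dist_eq_norm z y] at h4
  have h5 : K * r ≤ |K| * r := by gcongr; exact le_abs_self K
  linarith

lemma weight_ac {U : Set E} (V : IntegralVarifold m U) : V.weight ≪ (μH[m] : Measure E) :=
  (withDensity_absolutelyContinuous _ _).trans Measure.restrict_le_self.absolutelyContinuous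

/-- **Integer multiplicity of an integral varifold over a reference plane.** -/
theorem varifold_mult {U : Set E} (V : IntegralVarifold m U) {x : E} {R : ℝ}
    (hR : closedBall x R ⊆ U) {T₀ : Submodule ℝ E} (hT₀ : Module.finrank ℝ T₀ = m) {B : Set E}
    (hB : MeasurableSet B) (hBR : B ⊆ ball x R) :
    ∃ N : E → ℕ, Measurable N ∧
      Measure.map (proj T₀) ((V.weight.restrict B).withDensity
        fun y => ENNReal.ofReal (jac (proj T₀) (proj (V.tangent y)))) =
      ((μH[m] : Measure E).restrict (T₀ : Set E)).withDensity fun x => (N x : ℝ≥0∞) := by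
  have hfin : IsFiniteMeasure (V.weight.restrict (closedBall x R)) :=
    ⟨by rw [Measure.restrict_apply_univ]; exact V.locFinite _ hR (isCompact_closedBall x R)⟩
  have h := exists_mult (m := m) (μ := V.weight.restrict (closedBall x R))
    (P := fun y => proj (V.tangent y)) (O := ball x R)
    (Measure.restrict_le_self.absolutelyContinuous.trans (weight_ac V))
    (V.tangent_meas.mono_measure Measure.restrict_le_self) ?_ hT₀ hB hBR
  · obtain ⟨N, hN, h2⟩ := h
    refine ⟨N, hN, ?_⟩
    rw [← h2]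
    unfold sig
    rw [Measure.restrict_restrict hB,
      inter_eq_self_of_subset_left (hBR.trans ball_subset_closedBall)]
  · refine ae_restrict_of_ae ?_
    filter_upwards [V.tangent_spec, V.ae_mem_carrier] with y hy hyc hyO
    exact ⟨V.mult y, V.tangent y, V.mult_pos y hyc, rfl, isApproxTangent_restrict hyO hy⟩

end Vale.Agent.P214.AREA
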