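import Mathlib
import Vale.Agent.P214.AREA.Mult

/-! # P214, block AREA: the multiplicity is the sum over the fibre -/

open MeasureTheory Set Filter Topology Metric
open scoped ENNReal NNReal RealInnerProductSpace

set_option linter.unusedSectionVars false

namespace Vale.Agent.P214.AREA

variable {E : Type*} [NormedAddCommGroup E] [InnerProductSpace ℝ E] [FiniteDimensional ℝ E]
  [MeasurableSpace E] [BorelSpace E] {m : ℕ}

/-- sum of `θ` over the points of `A` in the fibre of `p` over `x` -/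
noncomputable def fsum (p : E → E) (θ : E → ℕ) (A : Set E) (x : E) : ℝ≥0∞ :=
  ∑' y : E, (A ∩ p ⁻¹' {x}).indicator (fun y => (θ y : ℝ≥0∞)) y

lemma fsum_subtype (p : E → E) (θ : E → ℕ) (A B : Set E) (x : E) :
    ∑' y : {y : E // y ∈ A ∧ y ∈ B ∧ p y = x}, (θ y : ℝ≥0∞) = fsum p θ (A ∩ B) x := by
  have h : (A ∩ B) ∩ p ⁻¹' {x} = {y | y ∈ A ∧ y ∈ B ∧ p y = x} := by
    ext y
    constructor
    · rintro ⟨⟨h1, h2⟩, h3⟩; exact ⟨h1, h2, h3⟩
    · rintro ⟨h1, h2, h3⟩; exact ⟨⟨h1, h2⟩, h3⟩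
  unfold fsum
  rw [h, ← tsum_subtype]
  rfl

lemma fsum_mono {p : E → E} {θ : E → ℕ} {A B : Set E} (h : A ⊆ B) (x : E) :
    fsum p θ A x ≤ fsum p θ B x :=
  ENNReal.tsum_le_tsum fun y =>
    indicator_le_indicator_of_subset (inter_subset_inter_left _ h) (fun _ => zero_le) y

lemma fsum_eq_zero {p : E → E} {θ : E → ℕ} {A : Set E} {x : E} (h : x ∉ p '' A) :
    fsum p θ A x = 0 := by
  unfold fsum
  rw [ENNReal.tsum_eq_zero]
  intro y
  refine indicator_of_notMem (fun hy => h ⟨y, hy.1, hy.2⟩) _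

lemma fsum_of_inj {p : E → E} {θ : E → ℕ} {A : Set E} (hA : InjOn p A) {y : E} (hy : y ∈ A) :
    fsum p θ A (p y) = θ y := by
  unfold fsum
  rw [tsum_eq_single y]
  · exact indicator_of_mem (show y ∈ A ∩ p ⁻¹' {p y} from ⟨hy, rfl⟩) _
  · intro z hz
    refine indicator_of_notMem (fun h => hz (hA h.1 hy h.2)) _

lemma fsum_iUnion {p : E → E} {θ : E → ℕ} {A : ℕ → Set E} (hd : ∀ i j, i ≠ j → Disjoint (A i) (A j))
    (x : E) : fsum p θ (⋃ i, A i) x = ∑' i, fsum p θ (A i) x := by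
  unfold fsum
  rw [ENNReal.tsum_comm]
  congr 1
  ext y
  by_cases hy : y ∈ (⋃ i, A i) ∩ p ⁻¹' {x}
  · rw [indicator_of_mem hy]
    obtain ⟨i, hi⟩ := mem_iUnion.1 hy.1
    rw [tsum_eq_single i, indicator_of_mem (show y ∈ A i ∩ p ⁻¹' {x} from ⟨hi, hy.2⟩)]
    intro j hj
    exact indicator_of_notMem (fun h => (hd j i hj).le_bot ⟨h.1, hi⟩) _
  · rw [indicator_of_notMem hy]
    symm
    rw [ENNReal.tsum_eq_zero]
    intro i
    exact indicator_of_notMem (fun h => hy ⟨mem_iUnion.2 ⟨i, h.1⟩, h.2⟩) _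

lemma fsum_union {p : E → E} {θ : E → ℕ} {A B : Set E} (hd : Disjoint A B)
    (x : E) : fsum p θ (A ∪ B) x = fsum p θ A x + fsum p θ B x := by
  unfold fsum
  rw [← ENNReal.tsum_add]
  congr 1
  ext y
  rw [union_inter_distrib_right, indicator_union_of_disjoint
    (hd.mono inter_subset_left inter_subset_left)]

/-- the density of the projected measure of a Lipschitz piece is the multiplicity -/
lemma piece_density {μ : Measure E} [IsFiniteMeasure μ] (hac : μ ≪ (μH[m] : Measure E))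
    {T₀ : Submodule ℝ E} (hT₀ : Module.finrank ℝ T₀ = m) {S : Set E} {J : E → ℝ} {L : ℝ}
    (hL : 1 ≤ L) (hS : MeasurableSet S)
    (hSL : ∀ y ∈ S, ∀ y' ∈ S, ‖y' - y‖ ≤ L * ‖proj T₀ y' - proj T₀ y‖)
    (hJm : Measurable J) (hJ0 : ∀ z, 0 ≤ J z) (hJ1 : ∀ z, J z ≤ 1) {θ : E → ℕ}
    (htan : ∀ᵐ y ∂μ, y ∈ S → ∃ T : Submodule ℝ E, IsApproxTangent m μ y (θ y) T ∧
      J y = jac (proj T₀) (proj T) ∧ 0 < jac (proj T₀) (proj T) ∧
      ∀ z ∈ T, ‖z‖ ≤ L * ‖proj T₀ z‖) :
    ∃ n : E → ℝ≥0∞, Measurable n ∧ sig μ (proj T₀) J S =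
      ((μH[m] : Measure E).restrict (T₀ : Set E)).withDensity n ∧
      ∀ᵐ y ∂μ, y ∈ S → n (proj T₀ y) = θ y := by
  have : Fact (Module.finrank ℝ T₀ = m) := ⟨hT₀⟩
  set p := proj T₀ with hp
  have hpm : Measurable (p : E → E) := p.continuous.measurable
  set lam := (μH[m] : Measure E).restrict (T₀ : Set E) with hlam
  have hJi : Integrable J μ := Integrable.of_bound hJm.aestronglyMeasurable 1
    (Eventually.of_forall fun z => by rw [Real.norm_of_nonneg (hJ0 z)]; exact hJ1 z)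
  set sg := sig μ p J S with hsg
  have hfin : IsFiniteMeasure sg := by
    rw [hsg]
    unfold sig
    have : IsFiniteMeasure ((μ.restrict S).withDensity fun z => ENNReal.ofReal (J z)) := by
      refine isFiniteMeasure_withDensity ?_
      refine ((lintegral_mono (g := fun _ => 1) fun z => ?_).trans_lt ?_).ne
      · exact ENNReal.ofReal_le_one.2 (hJ1 z)
      · rw [lintegral_const, one_mul]; exact measure_lt_top _ _
    infer_instance
  have hsac : sg ≪ lam := sig_ac hac (by linarith) hSL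
  have hbes := Besicovitch.ae_tendsto_rnDeriv sg lam
  set n := sg.rnDeriv lam with hn
  have hnm : Measurable n := Measure.measurable_rnDeriv _ _
  have hwd : lam.withDensity n = sg := Measure.withDensity_rnDeriv_eq _ _ hsac
  -- Lebesgue points
  have hGi : LocallyIntegrable (S.indicator J) μ := (hJi.indicator hS).locallyIntegrable
  have hLeb : ∀ᵐ y ∂μ, Tendsto (fun r : ℝ => ⨍ z in closedBall y r,
      ‖S.indicator J z - S.indicator J y‖ ∂μ) (𝓝[>] 0) (𝓝 0) := by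
    filter_upwards [(Besicovitch.vitaliFamily μ).ae_tendsto_average_norm_sub hGi] with y hy
    exact hy.comp (Besicovitch.tendsto_filterAt μ y)
  refine ⟨n, hnm, hwd.symm, ?_⟩
  have h1 : ∀ᵐ x ∂sg, Tendsto (fun r : ℝ => sg (closedBall x r) / lam (closedBall x r)) (𝓝[>] 0)
      (𝓝 (n x)) := hsac.ae_le hbes
  have h1' : ∀ᵐ y ∂((μ.restrict S).withDensity fun z => ENNReal.ofReal (J z)),
      Tendsto (fun r : ℝ => sg (closedBall (p y) r) / lam (closedBall (p y) r)) (𝓝[>] 0)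
      (𝓝 (n (p y))) := ae_of_ae_map hpm.aemeasurable h1
  rw [ae_withDensity_iff hJm.ennreal_ofReal] at h1'
  have h2 := (ae_restrict_iff' hS).1 h1'
  filter_upwards [h2, htan, hLeb] with y hy1 hy2 hyL hyS
  obtain ⟨T, hT, hJy, hJp, hTL⟩ := hy2 hyS
  have h3 := hy1 hyS (by rw [hJy]; exact (ENNReal.ofReal_pos.2 hJp).ne')
  have h4 := ratio_limit hT₀ hT hL hTL hJp hS hJm hJ0 hJi hyS hJy (hSL y hyS) hyL
  exact tendsto_nhds_unique h3 h4

/-- one Lipschitz piece: area formula with the multiplicity -/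
lemma piece_fibre {μ : Measure E} [IsFiniteMeasure μ] (hac : μ ≪ (μH[m] : Measure E))
    {T₀ : Submodule ℝ E} (hT₀ : Module.finrank ℝ T₀ = m) {S : Set E} {J : E → ℝ} {L : ℝ}
    (hL : 1 ≤ L) (hS : MeasurableSet S)
    (hSL : ∀ y ∈ S, ∀ y' ∈ S, ‖y' - y‖ ≤ L * ‖proj T₀ y' - proj T₀ y‖)
    (hJm : Measurable J) (hJ0 : ∀ z, 0 ≤ J z) (hJ1 : ∀ z, J z ≤ 1) {θ : E → ℕ}
    (htan : ∀ᵐ y ∂μ, y ∈ S → ∃ T : Submodule ℝ E, IsApproxTangent m μ y (θ y) T ∧
      J y = jac (proj T₀) (proj T) ∧ 0 < jac (proj T₀) (proj T) ∧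
      ∀ z ∈ T, ‖z‖ ≤ L * ‖proj T₀ z‖) {A : Set E} (hA : ∀ᵐ y ∂μ, y ∈ A) :
    ∃ S' : Set E, S' ⊆ S ∩ A ∧ MeasurableSet S' ∧ μ (S \ S') = 0 ∧
      ∀ B, MeasurableSet B → Measurable (fsum (proj T₀) θ (S' ∩ B)) ∧
        sig μ (proj T₀) J (S' ∩ B) = ((μH[m] : Measure E).restrict (T₀ : Set E)).withDensity
          (fsum (proj T₀) θ (S' ∩ B)) := by
  obtain ⟨n, hnm, hn, hnθ⟩ := piece_density hac hT₀ hL hS hSL hJm hJ0 hJ1 htan
  set p := proj T₀ with hp
  have hpm : Measurable (p : E → E) := p.continuous.measurable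
  set lam := (μH[m] : Measure E).restrict (T₀ : Set E) with hlam
  have h0 : ∀ᵐ y ∂μ, (y ∈ S → n (p y) = θ y) ∧ y ∈ A := hnθ.and hA
  obtain ⟨Z, hZ1, hZ2, hZ3⟩ := exists_measurable_superset_of_null (ae_iff.1 h0)
  have hinj : InjOn (p : E → E) (S \ Z) := by
    intro y hy y' hy' he
    have h1 := hSL y hy.1 y' hy'.1
    rw [he, sub_self, norm_zero, mul_zero] at h1
    have h2 := le_antisymm h1 (norm_nonneg _)
    exact (sub_eq_zero.1 (norm_eq_zero.1 h2)).symm
  refine ⟨S \ Z, ?_, hS.diff hZ2, ?_, ?_⟩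
  · intro y hy
    refine ⟨hy.1, ?_⟩
    by_contra hcon
    exact hy.2 (hZ1 fun h => hcon h.2)
  · refine measure_mono_null ?_ hZ3
    rintro y ⟨hy1, hy2⟩
    by_contra hcon
    exact hy2 ⟨hy1, hcon⟩
  intro B hB
  have hSB : MeasurableSet ((S \ Z) ∩ B) := (hS.diff hZ2).inter hB
  have hinjB : InjOn (p : E → E) ((S \ Z) ∩ B) := hinj.mono inter_subset_left
  have him : MeasurableSet (p '' ((S \ Z) ∩ B)) := hSB.image_of_measurable_injOn hpm hinjB
  have hfs : fsum p θ ((S \ Z) ∩ B) = (p '' ((S \ Z) ∩ B)).indicator n := by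
    ext x
    by_cases hx : x ∈ p '' ((S \ Z) ∩ B)
    · rw [indicator_of_mem hx]
      obtain ⟨y, hy, rfl⟩ := hx
      rw [fsum_of_inj hinjB hy]
      by_contra hcon
      refine hy.1.2 (hZ1 fun h => hcon ?_)
      exact (h.1 hy.1.1).symm
    · rw [indicator_of_notMem hx, fsum_eq_zero hx]
  refine ⟨by rw [hfs]; exact hnm.indicator him, ?_⟩
  rw [hfs, withDensity_indicator him, ← restrict_withDensity him, ← hn]
  ext X hX
  rw [Measure.restrict_apply hX]
  unfold sig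
  rw [Measure.map_apply hpm hX, Measure.map_apply hpm (hX.inter him),
    withDensity_apply _ (hpm hX), withDensity_apply _ (hpm (hX.inter him)),
    Measure.restrict_restrict (hpm hX), Measure.restrict_restrict (hpm (hX.inter him))]
  refine setLIntegral_congr ?_
  have hZ0 : ∀ᵐ y ∂μ, y ∉ Z := measure_eq_zero_iff_ae_notMem.1 hZ3
  filter_upwards [hZ0] with y hyZ
  refine propext ⟨?_, ?_⟩
  · rintro ⟨h1, ⟨h2, h3⟩, h4⟩
    exact ⟨⟨h1, ⟨y, ⟨⟨h2, h3⟩, h4⟩, rfl⟩⟩, h2⟩
  · rintro ⟨⟨h1, ⟨y', hy', he⟩⟩, h2⟩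
    have h3 : y' = y := hinj hy'.1 ⟨h2, hyZ⟩ he
    rw [h3] at hy'
    exact ⟨h1, hy'⟩

/-- **Area formula over the transversal points.** `S` can be chosen inside any set `A` of full
measure. -/
theorem exists_fibre {μ : Measure E} [IsFiniteMeasure μ] (hac : μ ≪ (μH[m] : Measure E))
    {P : E → E →L[ℝ] E} (hP : AEStronglyMeasurable P μ) {O : Set E} (hO : MeasurableSet O)
    {θ : E → ℕ}
    (htan : ∀ᵐ y ∂μ, y ∈ O → 1 ≤ θ y ∧ ∃ T : Submodule ℝ E, P y = proj T ∧
      IsApproxTangent m μ y (θ y) T)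
    {T₀ : Submodule ℝ E} (hT₀ : Module.finrank ℝ T₀ = m) {A : Set E} (hA : ∀ᵐ y ∂μ, y ∈ A) :
    ∃ S : Set E, MeasurableSet S ∧ S ⊆ O ∩ A ∧
      (∀ᵐ y ∂μ, y ∈ O → (y ∈ S ↔ 0 < jac (proj T₀) (P y))) ∧
      ∀ B, MeasurableSet B → Measurable (fsum (proj T₀) θ (S ∩ B)) ∧
        sig μ (proj T₀) (fun y => jac (proj T₀) (P y)) (O ∩ B) =
        ((μH[m] : Measure E).restrict (T₀ : Set E)).withDensity (fsum (proj T₀) θ (S ∩ B)) := by
  have hfact : Fact (Module.finrank ℝ T₀ = m) := ⟨hT₀⟩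
  set p := proj T₀ with hp
  have hpm : Measurable (p : E → E) := p.continuous.measurable
  set lam := (μH[m] : Measure E).restrict (T₀ : Set E) with hlam
  have hpn : ∀ z, ‖p z‖ ≤ ‖z‖ := fun z => by
    rw [hp]; unfold proj; exact Submodule.norm_starProjection_apply_le _ _
  have hpn' : ∀ z, ‖z - p z‖ ≤ ‖z‖ := fun z => by
    have : z - p z = proj T₀ᗮ z := by
      rw [hp]; unfold proj
      rw [Submodule.starProjection_orthogonal']
      rfl
    rw [this]
    unfold proj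
    exact Submodule.norm_starProjection_apply_le _ _
  -- measurable version
  set P' := hP.mk P with hP'
  have hP'm : Measurable P' := hP.stronglyMeasurable_mk.measurable
  have hPP' : ∀ᵐ y ∂μ, P y = P' y := hP.ae_eq_mk
  set J : E → ℝ := fun y => min 1 (jac p (P' y)) with hJ
  have hJm : Measurable J := measurable_const.min ((continuous_jac p).measurable.comp hP'm)
  have hJ0 : ∀ z, 0 ≤ J z := fun z => le_min zero_le_one (jac_nonneg _ _)
  have hJ1 : ∀ z, J z ≤ 1 := fun z => min_le_left _ _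
  have htan' : ∀ᵐ y ∂μ, y ∈ O → 1 ≤ θ y ∧ ∃ T : Submodule ℝ E, P' y = proj T ∧
      IsApproxTangent m μ y (θ y) T ∧ J y = jac p (proj T) ∧ P y = P' y := by
    filter_upwards [htan, hPP'] with y h1 h2 hyB
    obtain ⟨hq, T, hPT, hT⟩ := h1 hyB
    refine ⟨hq, T, by rw [← h2, hPT], hT, ?_, h2⟩
    show min 1 (jac p (P' y)) = _
    rw [← h2, hPT, min_eq_right (jac_le_one hT.1 hT₀)]
  obtain ⟨C, L, hCc, hL1, hCL, hcov⟩ := exists_pieces m μ hpn hpn'
  -- pieces with tangential condition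
  let G : ℕ → Set E := fun i => P' ⁻¹' {Q | ∀ z, ‖Q z‖ ≤ L i * ‖p (Q z)‖}
  have hGm : ∀ i, MeasurableSet (G i) := fun i => by
    refine hP'm (IsClosed.measurableSet ?_)
    simp only [Set.ofPred_forall]
    refine isClosed_iInter fun z => isClosed_le (by fun_prop) (by fun_prop)
  let D : ℕ → Set E := fun i => C i ∩ G i
  have hDm : ∀ i, MeasurableSet (D i) := fun i => (hCc i).measurableSet.inter (hGm i)
  let B' : Set E := O ∩ {y | 0 < J y}
  have hB' : MeasurableSet B' := hO.inter (measurableSet_lt measurable_const hJm)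
  let S : ℕ → Set E := fun i => B' ∩ disjointed D i
  have hSm : ∀ i, MeasurableSet (S i) := fun i => hB'.inter (MeasurableSet.disjointed hDm i)
  have hSD : ∀ i, S i ⊆ D i := fun i => inter_subset_right.trans (disjointed_subset D i)
  have hSB : ∀ i, S i ⊆ O := fun i => inter_subset_left.trans inter_subset_left
  have hSdisj : ∀ i j, i ≠ j → Disjoint (S i) (S j) := fun i j hij =>
    (disjoint_disjointed D hij).mono inter_subset_right inter_subset_right
  have htr : ∀ᵐ y ∂μ, y ∈ O → 0 < J y → y ∈ ⋃ i, S i := by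
    filter_upwards [htan'] with y h1 hyB hJy
    obtain ⟨hq, T, hPT, hT, hJT, -⟩ := h1 hyB
    have hJy' := hJy
    rw [hJT] at hJy
    have h2 := (jac_pos_iff hT.1 hT₀).1 hJy
    obtain ⟨i, hi, hi2⟩ := hcov y (θ y) T hq hT h2
    have h3 : y ∈ D i := by
      refine ⟨hi, fun z => ?_⟩
      rw [hPT]
      exact hi2 _ (by unfold proj; exact Submodule.starProjection_apply_mem _ _)
    have h4 : y ∈ ⋃ i, disjointed D i := by
      rw [iUnion_disjointed]; exact mem_iUnion.2 ⟨i, h3⟩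
    rw [← inter_iUnion]
    exact ⟨⟨hyB, hJy'⟩, h4⟩
  -- multiplicities of the pieces
  have hpiece : ∀ i, ∃ S' : Set E, S' ⊆ S i ∩ A ∧ MeasurableSet S' ∧ μ (S i \ S') = 0 ∧
      ∀ B, MeasurableSet B → Measurable (fsum p θ (S' ∩ B)) ∧
        sig μ p J (S' ∩ B) = lam.withDensity (fsum p θ (S' ∩ B)) := by
    intro i
    refine piece_fibre hac hT₀ (hL1 i) (hSm i) ?_ hJm hJ0 hJ1 ?_ hA
    · intro y hy y' hy'
      exact hCL i y (hSD i hy).1 y' (hSD i hy').1
    · filter_upwards [htan'] with y h1 hyS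
      obtain ⟨hq, T, hPT, hT, hJT, -⟩ := h1 (hSB i hyS)
      refine ⟨T, hT, hJT, ?_, ?_⟩
      · rw [← hJT]; exact hyS.1.2
      · intro z hz
        have h2 := (hSD i hyS).2 z
        rw [hPT] at h2
        have h3 : proj T z = z := by
          unfold proj; exact Submodule.starProjection_eq_self_iff.2 hz
        rwa [h3] at h2
  choose S' hS'1 hS'm hS'0 hS' using hpiece
  have hS'S : ∀ i, S' i ⊆ S i := fun i => (hS'1 i).trans inter_subset_left
  have hfull : ∀ᵐ y ∂μ, ∀ i, y ∈ S i → y ∈ S' i := by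
    rw [ae_all_iff]
    intro i
    filter_upwards [measure_eq_zero_iff_ae_notMem.1 (hS'0 i)] with y hy hyS
    by_contra hcon
    exact hy ⟨hyS, hcon⟩
  set f : E → ℝ≥0∞ := fun z => ENNReal.ofReal (J z) with hf
  have hfm : Measurable f := hJm.ennreal_ofReal
  refine ⟨⋃ i, S' i, MeasurableSet.iUnion hS'm, ?_, ?_, fun B hB => ?_⟩
  · refine iUnion_subset fun i => ?_
    exact (hS'1 i).trans (inter_subset_inter_left _ (hSB i))
  · filter_upwards [htan', htr, hfull] with y h1 h2 h3 hyO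
    obtain ⟨hq, T, hPT, hT, hJT, hPP⟩ := h1 hyO
    have h4 : jac p (P y) = J y := by rw [hPP, hPT, hJT]
    rw [h4]
    constructor
    · intro hy
      obtain ⟨i, hi⟩ := mem_iUnion.1 hy
      exact (hS'S i hi).1.2
    · intro hy
      obtain ⟨i, hi⟩ := mem_iUnion.1 (h2 hyO hy)
      exact mem_iUnion.2 ⟨i, h3 i hi⟩
  have hfs : fsum p θ ((⋃ i, S' i) ∩ B) = ∑' i, fsum p θ (S' i ∩ B) := by
    ext x
    rw [iUnion_inter, fsum_iUnion, tsum_apply (Pi.summable.2 fun _ => ENNReal.summable)]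
    intro i j hij
    exact (hSdisj i j hij).mono (inter_subset_left.trans (hS'S i))
      (inter_subset_left.trans (hS'S j))
  have hNm : ∀ i, Measurable (fsum p θ (S' i ∩ B)) := fun i => (hS' i B hB).1
  have hN : ∀ i, sig μ p J (S' i ∩ B) = lam.withDensity (fsum p θ (S' i ∩ B)) :=
    fun i => (hS' i B hB).2
  have hfsm : Measurable (fsum p θ ((⋃ i, S' i) ∩ B)) := by
    rw [hfs]
    have : (∑' i, fsum p θ (S' i ∩ B)) = fun x => ∑' i, fsum p θ (S' i ∩ B) x := by
      ext x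
      rw [tsum_apply (Pi.summable.2 fun _ => ENNReal.summable)]
    rw [this]
    exact Measurable.tsum hNm
  refine ⟨hfsm, ?_⟩
  rw [hfs, withDensity_tsum hNm]
  have h1 : ∀ i, sig μ p J (S' i ∩ B) =
      Measure.map p (μ.withDensity ((S' i ∩ B).indicator f)) := by
    intro i
    unfold sig
    rw [withDensity_indicator ((hS'm i).inter hB)]
  simp_rw [← hN, h1]
  rw [← Measure.map_sum hpm.aemeasurable,
    ← withDensity_tsum (fun i => hfm.indicator ((hS'm i).inter hB))]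
  unfold sig
  congr 1
  rw [← withDensity_indicator (hO.inter hB)]
  refine withDensity_congr_ae ?_
  filter_upwards [htan', htr, hfull] with y hy1 hy2 hy3
  rw [tsum_apply (Pi.summable.2 fun _ => ENNReal.summable)]
  by_cases hyB : y ∈ O ∩ B
  · obtain ⟨hq, T, hPT, hT, hJT, hPP⟩ := hy1 hyB.1
    rw [indicator_of_mem hyB]
    have h3 : ENNReal.ofReal (jac p (P y)) = f y := by
      rw [hf]
      show _ = ENNReal.ofReal (J y)
      rw [hJT, hPP, hPT]
    rw [h3]
    by_cases hJy : 0 < J y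
    · obtain ⟨i, hi⟩ := mem_iUnion.1 (hy2 hyB.1 hJy)
      have hi' := hy3 i hi
      rw [tsum_eq_single i, indicator_of_mem (show y ∈ S' i ∩ B from ⟨hi', hyB.2⟩)]
      intro j hj
      exact indicator_of_notMem (fun hjy =>
        (hSdisj j i hj).le_bot ⟨hS'S j hjy.1, hi⟩) _
    · have h4 : f y = 0 := by
        rw [hf]
        exact ENNReal.ofReal_of_nonpos (not_lt.1 hJy)
      rw [h4]
      symm
      rw [ENNReal.tsum_eq_zero]
      intro i
      by_cases hi : y ∈ S' i ∩ B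
      · rw [indicator_of_mem hi, h4]
      · rw [indicator_of_notMem hi]
  · rw [indicator_of_notMem hyB]
    symm
    rw [ENNReal.tsum_eq_zero]
    intro i
    exact indicator_of_notMem (fun h => hyB ⟨hSB i (hS'S i h.1), h.2⟩) _

end Vale.Agent.P214.AREA
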