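import Mathlib
import Vale.Agent.P214.AREA.Fibre

/-! # P214, block AREA: the vertical points project to a null set -/

open MeasureTheory Set Filter Topology Metric
open scoped ENNReal NNReal RealInnerProductSpace

set_option linter.unusedSectionVars false

namespace Vale.Agent.P214.AREA

variable {E : Type*} [NormedAddCommGroup E] [InnerProductSpace ℝ E] [FiniteDimensional ℝ E]
  [MeasurableSpace E] [BorelSpace E] {m : ℕ}

/-- test function of the complement of a narrow cone around the range of `p` -/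
noncomputable def cn (p : E →L[ℝ] E) (δ : ℝ) (z : E) : ℝ :=
  min 1 (max 0 (2 - ‖z‖)) * min 1 (max 0 (12 / δ * (‖z - p z‖ - δ / 2 * ‖p z‖)))

lemma cn_nonneg (p : E →L[ℝ] E) (δ : ℝ) (z : E) : 0 ≤ cn p δ z := by
  unfold cn; positivity

lemma cn_le_one (p : E →L[ℝ] E) (δ : ℝ) (z : E) : cn p δ z ≤ 1 := by
  unfold cn
  have h1 : min 1 (max 0 (2 - ‖z‖)) ≤ 1 := min_le_left _ _
  have h2 : min 1 (max 0 (12 / δ * (‖z - p z‖ - δ / 2 * ‖p z‖))) ≤ 1 := min_le_left _ _
  have h3 : 0 ≤ min 1 (max 0 (12 / δ * (‖z - p z‖ - δ / 2 * ‖p z‖))) := by positivity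
  nlinarith

lemma continuous_cn (p : E →L[ℝ] E) (δ : ℝ) : Continuous (cn p δ) := by
  unfold cn; fun_prop

lemma hasCompactSupport_cn (p : E →L[ℝ] E) (δ : ℝ) : HasCompactSupport (cn p δ) := by
  refine HasCompactSupport.intro (isCompact_closedBall (0 : E) 2) ?_
  intro y hy
  rw [mem_closedBall, dist_zero_right, not_le] at hy
  unfold cn
  rw [max_eq_left (by linarith), min_eq_right zero_le_one, zero_mul]

lemma cn_eq_zero (p : E →L[ℝ] E) {δ : ℝ} (hδ : 0 < δ) {z : E} (h : ‖z - p z‖ ≤ δ / 2 * ‖p z‖) :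
    cn p δ z = 0 := by
  unfold cn
  have h1 : 12 / δ * (‖z - p z‖ - δ / 2 * ‖p z‖) ≤ 0 :=
    mul_nonpos_of_nonneg_of_nonpos (by positivity) (by linarith)
  rw [max_eq_left (a := (0:ℝ)) h1, min_eq_right zero_le_one, mul_zero]

lemma cn_eq_one (p : E →L[ℝ] E) {δ : ℝ} (hδ : 0 < δ) (hδ1 : δ ≤ 1) {z : E} (h1 : 1 / 3 ≤ ‖z‖)
    (h2 : ‖z‖ ≤ 1) (h : δ * ‖p z‖ ≤ ‖z - p z‖) : cn p δ z = 1 := by
  unfold cn
  have h3 : ‖z‖ ≤ ‖z - p z‖ + ‖p z‖ := by
    calc ‖z‖ = ‖(z - p z) + p z‖ := by rw [sub_add_cancel]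
      _ ≤ _ := norm_add_le _ _
  have hn := norm_nonneg (p z)
  have hn' := norm_nonneg (z - p z)
  have h4 : δ * ‖z‖ ≤ 2 * ‖z - p z‖ := by nlinarith
  have h5 : δ / 12 ≤ ‖z - p z‖ - δ / 2 * ‖p z‖ := by nlinarith
  have h6 : 1 ≤ 12 / δ * (‖z - p z‖ - δ / 2 * ‖p z‖) := by
    calc (1:ℝ) = 12 / δ * (δ / 12) := by field_simp
      _ ≤ _ := by gcongr
  rw [max_eq_right (by linarith), min_eq_left (by linarith), max_eq_right (by linarith),
    min_eq_left h6, mul_one]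

/-- the narrow pieces -/
def pn (m : ℕ) (μ : Measure E) (p : E →L[ℝ] E) (c ε : ℝ) (δ : ℝ) (r₀ : ℝ) : Set E :=
  {y | ∀ r, 0 < r → r ≤ r₀ → c * r ^ m ≤ ∫ z, bmp (r⁻¹ • (z - y)) ∂μ ∧
    ∫ z, cn p δ (r⁻¹ • (z - y)) ∂μ ≤ ε * r ^ m}

lemma isClosed_pn (m : ℕ) (μ : Measure E) [IsFiniteMeasure μ] (p : E →L[ℝ] E) (c ε δ r₀ : ℝ) :
    IsClosed (pn m μ p c ε δ r₀) := by
  unfold pn
  simp only [Set.ofPred_forall, Set.ofPred_and]
  refine isClosed_iInter fun r => isClosed_iInter fun h1 => isClosed_iInter fun h2 => ?_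
  refine IsClosed.inter ?_ ?_
  · refine isClosed_le continuous_const (continuous_int_shift continuous_bmp ?_ r)
    intro z
    rw [abs_of_nonneg (bmp_nonneg z)]
    exact bmp_le_one z
  · refine isClosed_le (continuous_int_shift (continuous_cn p δ) ?_ r) continuous_const
    intro z
    rw [abs_of_nonneg (cn_nonneg p δ z)]
    exact cn_le_one p δ z

/-- the narrow cone property -/
lemma cone_pn {m : ℕ} {μ : Measure E} [IsFiniteMeasure μ] {p : E →L[ℝ] E}
    (hp : ∀ z, ‖p z‖ ≤ ‖z‖) (hp' : ∀ z, ‖z - p z‖ ≤ ‖z‖) {c ε δ r₀ : ℝ} (hδ : 0 < δ) (hδ1 : δ ≤ 1)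
    (hε : ε < c * (δ / 9) ^ m) {y y' : E}
    (hy : y ∈ pn m μ p c ε δ r₀) (hy' : y' ∈ pn m μ p c ε δ r₀) (hd : ‖y' - y‖ ≤ r₀ / 2) :
    ‖(y' - y) - p (y' - y)‖ ≤ 2 * δ * ‖p (y' - y)‖ := by
  by_contra hcon
  rw [not_le] at hcon
  set w := y' - y with hw
  have hpw := norm_nonneg (p w)
  have hw0 : 0 < ‖w‖ := by
    rcases (norm_nonneg w).eq_or_lt with h | h
    · exfalso
      have : w = 0 := norm_eq_zero.1 h.symm
      rw [this] at hcon
      simp at hcon
    · exact h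
  set ρ := ‖w‖ with hρ
  have h1 : ρ ≤ ‖w - p w‖ + ‖p w‖ := by
    calc ρ = ‖(w - p w) + p w‖ := by rw [sub_add_cancel]
      _ ≤ _ := norm_add_le _ _
  have h2 : 2 / 3 * (δ * ρ) ≤ ‖w - p w‖ := by nlinarith [norm_nonneg (w - p w)]
  set η : ℝ := δ / 6 with hη
  have hη0 : 0 < η := by positivity
  have hη2 : η ≤ 1 / 6 := by linarith
  have hr0 : 0 < 3 / 2 * ρ := by positivity
  have hrδ : 3 / 2 * ρ ≤ r₀ := by linarith
  have hs0 : 0 < η * ρ := by positivity
  have hsδ : η * ρ ≤ r₀ := by nlinarith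
  have key : ∫ z, bmp ((η * ρ)⁻¹ • (z - y')) ∂μ ≤ ∫ z, cn p δ ((3 / 2 * ρ)⁻¹ • (z - y)) ∂μ := by
    refine integral_mono (integrable_shift continuous_bmp (fun z => by
      rw [abs_of_nonneg (bmp_nonneg z)]; exact bmp_le_one z) _ _)
      (integrable_shift (continuous_cn p δ) (fun z => by
      rw [abs_of_nonneg (cn_nonneg p δ z)]; exact cn_le_one p δ z) _ _) ?_
    intro z
    show bmp ((η * ρ)⁻¹ • (z - y')) ≤ cn p δ ((3 / 2 * ρ)⁻¹ • (z - y))
    by_cases hz : η * ρ ≤ ‖z - y'‖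
    · rw [bmp_eq_zero]
      · exact cn_nonneg _ _ _
      · rw [norm_smul, norm_inv, Real.norm_of_nonneg hs0.le, ← div_eq_inv_mul, le_div_iff₀ hs0,
          one_mul]
        exact hz
    · rw [not_le] at hz
      rw [cn_eq_one p hδ hδ1]
      · exact bmp_le_one _
      all_goals
        set v := z - y' with hv
        have huv : z - y = w + v := by rw [hv, hw]; abel
        have hvv := norm_nonneg v
      · rw [huv, norm_smul, norm_inv, Real.norm_of_nonneg hr0.le, ← div_eq_inv_mul,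
          le_div_iff₀ hr0]
        have : ρ ≤ ‖w + v‖ + ‖v‖ := by
          calc ρ = ‖(w + v) - v‖ := by rw [add_sub_cancel_right]
            _ ≤ _ := norm_sub_le _ _
        nlinarith
      · rw [huv, norm_smul, norm_inv, Real.norm_of_nonneg hr0.le, ← div_eq_inv_mul,
          div_le_one hr0]
        have : ‖w + v‖ ≤ ρ + ‖v‖ := norm_add_le _ _
        nlinarith
      · rw [huv, map_smul, ← smul_sub, norm_smul, norm_smul, ← mul_assoc, mul_comm δ, mul_assoc]
        refine mul_le_mul_of_nonneg_left ?_ (norm_nonneg _)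
        have e1 : ‖p (w + v)‖ ≤ ‖p w‖ + ‖v‖ := by
          rw [map_add]
          exact (norm_add_le _ _).trans (by gcongr; exact hp v)
        have e2 : ‖w - p w‖ ≤ ‖w + v - p (w + v)‖ + ‖v‖ := by
          have : w - p w = (w + v - p (w + v)) - (v - p v) := by rw [map_add]; abel
          calc ‖w - p w‖ = ‖(w + v - p (w + v)) - (v - p v)‖ := by rw [← this]
            _ ≤ ‖w + v - p (w + v)‖ + ‖v - p v‖ := norm_sub_le _ _
            _ ≤ _ := by gcongr; exact hp' v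
        have e3 : δ * ‖p (w + v)‖ ≤ δ * ‖p w‖ + δ * ‖v‖ := by nlinarith
        have e4 : δ * ‖v‖ ≤ ‖v‖ := by nlinarith
        have e5 : 2 * ‖v‖ ≤ δ * ρ / 3 := by
          have : ‖v‖ < δ / 6 * ρ := hz
          linarith
        linarith
  have h3 := (hy' _ hs0 hsδ).1
  have h4 := (hy _ hr0 hrδ).2
  have h5 : c * (η * ρ) ^ m ≤ ε * (3 / 2 * ρ) ^ m := h3.trans (key.trans h4)
  have h6 : η * ρ = δ / 9 * (3 / 2 * ρ) := by rw [hη]; ring
  rw [h6, mul_pow, ← mul_assoc] at h5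
  have h7 : 0 < (3 / 2 * ρ) ^ m := by positivity
  have := (mul_le_mul_iff_left₀ h7).1 h5
  linarith

/-- points whose tangent plane lies in the narrow cone lie in a piece -/
lemma exists_mem_pn {m : ℕ} {μ : Measure E} {p : E →L[ℝ] E} {q : ℕ}
    (hq : 1 ≤ q) {y : E} {T : Submodule ℝ E} (hT : IsApproxTangent m μ y q T) {δ : ℝ}
    (hδ : 0 < δ) (hM : ∀ z ∈ T, ‖z - p z‖ ≤ δ / 2 * ‖p z‖) {ε : ℝ} (hε : 0 < ε) :
    ∃ k : ℕ, y ∈ pn m μ p (cg m / 2) ε δ (1 / (k + 1)) := by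
  obtain ⟨hfin, hlim⟩ := hT
  have hcg := cg_pos m
  have h1 := hlim bmp continuous_bmp hasCompactSupport_bmp
  have h2 := hlim (cn p δ) (continuous_cn p δ) (hasCompactSupport_cn p δ)
  have e1 : ∫ z in (T : Set E), bmp z ∂μH[m] = cg m := integral_plane hfin
  have e2 : ∫ z in (T : Set E), cn p δ z ∂μH[m] = 0 := by
    rw [setIntegral_congr_fun (g := fun _ => (0:ℝ)) (Submodule.closed_of_finiteDimensional T).measurableSet
      (fun z hz => cn_eq_zero p hδ (hM z hz))]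
    simp
  rw [e1] at h1
  rw [e2, mul_zero] at h2
  have hq' : (1:ℝ) ≤ q := by exact_mod_cast hq
  have h3 : cg m / 2 < q * cg m := by nlinarith
  have h4 := (h1.eventually (lt_mem_nhds h3)).and (h2.eventually (gt_mem_nhds hε))
  obtain ⟨r₀, hr₀, hr₀2⟩ := (eventually_nhdsWithin_iff.1 h4 |> Metric.eventually_nhds_iff.1)
  obtain ⟨k, hk⟩ := exists_nat_one_div_lt hr₀
  refine ⟨k, fun r hr hrk => ?_⟩
  have h6 := hr₀2 (y := r) (by rw [Real.dist_eq, sub_zero, abs_of_pos hr]; linarith) hr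
  have hrm : 0 < r ^ m := by positivity
  constructor
  · have := h6.1.le
    rwa [le_div_iff₀ hrm] at this
  · have := h6.2.le
    rwa [div_le_iff₀ hrm] at this

/-- Sets in a narrow cone around a vertical plane have small projection. -/
lemma image_small {T₀ T : Submodule ℝ E} (hT₀ : Module.finrank ℝ T₀ = m)
    (hT : Module.finrank ℝ T = m) (hJ : jac (proj T₀) (proj T) = 0) {η : ℝ≥0} (hη : 0 < η) :
    ∃ δ : ℝ, 0 < δ ∧ δ ≤ 1 ∧ ∀ C : Set E,
      (∀ y ∈ C, ∀ y' ∈ C, ‖(y' - y) - proj T (y' - y)‖ ≤ 2 * δ * ‖proj T (y' - y)‖) →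
      μH[m] (proj T₀ '' C) ≤ η * μH[m] C := by
  obtain ⟨ι₀, hr₀, ha₀, h₀⟩ := exists_param hT₀
  obtain ⟨ι, hr, ha, h⟩ := exists_param hT
  have hH := haar_euc m
  rw [jac_eq h₀ ha h, abs_eq_zero] at hJ
  have hdet : ENNReal.ofReal |(pmap ι₀ ι).det| < (η : ℝ≥0∞) := by
    have : (pmap ι₀ ι).det = 0 := hJ
    rw [this, abs_zero, ENNReal.ofReal_zero]
    exact_mod_cast hη
  have h1 := addHaar_image_le_mul_of_det_lt (μH[m] : Measure (EuclideanSpace ℝ (Fin m)))
    (pmap ι₀ ι) hdet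
  obtain ⟨δ, hδ⟩ := (h1.and (self_mem_nhdsWithin (s := Ioi (0 : ℝ≥0)))).exists
  obtain ⟨hδ1, hδ0⟩ := hδ
  have hδ0' : (0:ℝ) < δ := hδ0
  refine ⟨min 1 ((δ : ℝ) / 2), by positivity, min_le_left _ _, fun C hC => ?_⟩
  have hmin : 2 * min 1 ((δ : ℝ) / 2) ≤ δ := by
    have := min_le_right 1 ((δ:ℝ) / 2)
    linarith
  set κ := ContinuousLinearMap.adjoint ι.toContinuousLinearMap with hκ
  set κ₀ := ContinuousLinearMap.adjoint ι₀.toContinuousLinearMap with hκ₀
  have hκn : ∀ z, ‖proj T z‖ = ‖κ z‖ := fun z => by rw [h z, ι.norm_map]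
  have hκ₀n : ∀ z, ‖κ₀ z‖ ≤ ‖z‖ := fun z => by
    have e1 : ‖proj T₀ z‖ = ‖κ₀ z‖ := by rw [h₀ z, ι₀.norm_map]
    rw [← e1]; unfold proj; exact Submodule.norm_starProjection_apply_le _ _
  -- inverse
  have hinj : InjOn κ C := by
    intro y hy y' hy' he
    have e1 := hC y hy y' hy'
    have e2 : κ (y' - y) = 0 := by rw [map_sub, he, sub_self]
    have e3 : proj T (y' - y) = 0 := by rw [h, e2, map_zero]
    rw [e3, norm_zero, mul_zero, sub_zero] at e1
    exact (sub_eq_zero.1 (norm_eq_zero.1 (le_antisymm e1 (norm_nonneg _)))).symm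
  let F : EuclideanSpace ℝ (Fin m) → E := Function.invFunOn κ C
  have hF : ∀ y ∈ C, F (κ y) = y := fun y hy => hinj.leftInvOn_invFunOn hy
  have happ : ApproximatesLinearOn (fun x => κ₀ (F x)) (pmap ι₀ ι) (κ '' C) δ := by
    rintro _ ⟨y, hy, rfl⟩ _ ⟨y', hy', rfl⟩
    simp only
    rw [hF y hy, hF y' hy', ← map_sub, ← map_sub]
    have e1 : (pmap ι₀ ι) (κ (y - y')) = κ₀ (proj T (y - y')) := by
      rw [h]; rfl
    rw [e1, ← map_sub]
    refine (hκ₀n _).trans ?_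
    have e2 := hC y' hy' y hy
    rw [hκn] at e2
    refine e2.trans ?_
    gcongr
  have h2 := hδ1 (κ '' C) (fun x => κ₀ (F x)) happ
  have h3 : (fun x => κ₀ (F x)) '' (κ '' C) = κ₀ '' C := by
    ext x
    constructor
    · rintro ⟨_, ⟨y, hy, rfl⟩, rfl⟩; exact ⟨y, hy, by simp only [hF y hy]⟩
    · rintro ⟨y, hy, rfl⟩; exact ⟨κ y, ⟨y, hy, rfl⟩, by simp only [hF y hy]⟩
  rw [h3] at h2
  have h4 : proj T₀ '' C = ι₀ '' (κ₀ '' C) := by
    rw [image_image]
    exact image_congr fun y _ => h₀ y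
  rw [h4, ι₀.isometry.hausdorffMeasure_image (Or.inl (Nat.cast_nonneg m))]
  refine h2.trans ?_
  gcongr
  have hlip : LipschitzWith 1 κ := by
    refine LipschitzWith.of_dist_le_mul fun y y' => ?_
    rw [dist_eq_norm, dist_eq_norm, ← map_sub, ← hκn, NNReal.coe_one, one_mul]
    unfold proj
    exact Submodule.norm_starProjection_apply_le _ _
  refine (hlip.hausdorffMeasure_image_le (Nat.cast_nonneg m) C).trans ?_
  simp

lemma norm_proj_le (T : Submodule ℝ E) (z : E) : ‖proj T z‖ ≤ ‖z‖ := by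
  unfold proj; exact Submodule.norm_starProjection_apply_le _ _

lemma norm_sub_proj_le (T : Submodule ℝ E) (z : E) : ‖z - proj T z‖ ≤ ‖z‖ := by
  have : z - proj T z = proj Tᗮ z := by
    unfold proj
    rw [Submodule.starProjection_orthogonal']
    rfl
  rw [this]
  exact norm_proj_le _ _

/-- **The points with a vertical tangent plane project to a null set.** -/
theorem sard {μ : Measure E} [IsFiniteMeasure μ] {T₀ : Submodule ℝ E}
    (hT₀ : Module.finrank ℝ T₀ = m) {S : Set E} (hS : MeasurableSet S)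
    (hfin : μH[m] S ≠ ⊤)
    (h : ∀ y ∈ S, ∃ (q : ℕ) (T : Submodule ℝ E), 1 ≤ q ∧ IsApproxTangent m μ y q T ∧
      jac (proj T₀) (proj T) = 0) : μH[m] (proj T₀ '' S) = 0 := by
  rcases S.eq_empty_or_nonempty with hne | hne
  · rw [hne, image_empty, measure_empty]
  have hcg := cg_pos m
  have : ProperSpace (E →L[ℝ] E) := FiniteDimensional.proper ℝ _
  have : SecondCountableTopology (E →L[ℝ] E) := secondCountable_of_proper
  -- main estimate
  have key : ∀ η : ℝ≥0, 0 < η → μH[m] (proj T₀ '' S) ≤ η * μH[m] S := by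
    intro η hη
    let K₀ : Set (E →L[ℝ] E) := {Q | ∃ T : Submodule ℝ E, Module.finrank ℝ T = m ∧ Q = proj T ∧
      jac (proj T₀) (proj T) = 0}
    have hδ : ∀ Q : E →L[ℝ] E, ∃ δ : ℝ, 0 < δ ∧ δ ≤ 1 ∧ (Q ∈ K₀ → ∀ C : Set E,
      (∀ y ∈ C, ∀ y' ∈ C, ‖(y' - y) - Q (y' - y)‖ ≤ 2 * δ * ‖Q (y' - y)‖) →
      μH[m] (proj T₀ '' C) ≤ η * μH[m] C) := by
      intro Q
      by_cases hQ : Q ∈ K₀
      · obtain ⟨T, hT, rfl, hJ⟩ := hQ
        obtain ⟨δ, h1, h2, h3⟩ := image_small hT₀ hT hJ hη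
        exact ⟨δ, h1, h2, fun _ => h3⟩
      · exact ⟨1, one_pos, le_rfl, fun h => absurd h hQ⟩
    choose δ hδ0 hδ1 hδ2 using hδ
    obtain ⟨t, htK, htc, hcov⟩ := TopologicalSpace.countable_cover_nhdsWithin
      (s := K₀) (f := fun Q => ball Q (δ Q / 4))
      (fun Q _ => mem_nhdsWithin_of_mem_nhds (ball_mem_nhds Q (by have := hδ0 Q; positivity)))
    let ε : (E →L[ℝ] E) → ℝ := fun Q => cg m / 2 * (δ Q / 9) ^ m / 2
    have hε : ∀ Q, 0 < ε Q := fun Q => by have := hδ0 Q; positivity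
    let ι := t × ℕ × ℕ
    let D : ι → Set E := fun i =>
      pn m μ i.1.1 (cg m / 2) (ε i.1.1) (δ i.1.1) (1 / (i.2.1 + 1)) ∩
        closedBall (TopologicalSpace.denseSeq E i.2.2) (1 / (4 * (i.2.1 + 1)))
    have hDc : ∀ i, IsClosed (D i) := fun i => (isClosed_pn _ _ _ _ _ _ _).inter isClosed_closedBall
    have hSD : ∀ y ∈ S, ∃ i, y ∈ D i := by
      intro y hy
      obtain ⟨q, T, hq, hT, hJ⟩ := h y hy
      have h1 : proj T ∈ K₀ := ⟨T, hT.1, rfl, hJ⟩
      obtain ⟨Q, hQt, hQ⟩ := mem_iUnion₂.1 (hcov h1)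
      rw [mem_ball, dist_eq_norm] at hQ
      have h2 : ∀ z ∈ T, ‖z - Q z‖ ≤ δ Q / 2 * ‖Q z‖ := by
        intro z hz
        have h3 : proj T z = z := by
          unfold proj; exact Submodule.starProjection_eq_self_iff.2 hz
        have h4 : z - Q z = (proj T - Q) z := by
          rw [FunLike.coe_sub, Pi.sub_apply, h3]
        have h5 : ‖z - Q z‖ ≤ δ Q / 4 * ‖z‖ := by
          rw [h4]
          exact ((proj T - Q).le_opNorm z).trans (by gcongr)
        have h6 : ‖z‖ ≤ ‖z - Q z‖ + ‖Q z‖ := by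
          calc ‖z‖ = ‖(z - Q z) + Q z‖ := by rw [sub_add_cancel]
            _ ≤ _ := norm_add_le _ _
        have h7 := hδ0 Q
        have h8 := hδ1 Q
        have h9 := norm_nonneg z
        have h10 : ‖z‖ ≤ 2 * ‖Q z‖ := by nlinarith
        nlinarith
      obtain ⟨k, hk⟩ := exists_mem_pn hq hT (hδ0 Q) h2 (hε Q)
      obtain ⟨l, hl⟩ := (TopologicalSpace.denseRange_denseSeq E).exists_dist_lt y
        (ε := 1 / (4 * ((k:ℝ) + 1))) (by positivity)
      exact ⟨(⟨Q, hQt⟩, k, l), hk, mem_closedBall.2 hl.le⟩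
    have hDm : ∀ i, ∀ C ⊆ D i, μH[m] (proj T₀ '' C) ≤ η * μH[m] C := by
      rintro ⟨⟨Q, hQ⟩, k, l⟩ C hC
      obtain ⟨T, hT, hQT, hJ⟩ := htK hQ
      refine hδ2 Q (htK hQ) C fun y hy y' hy' => ?_
      have hd : ‖y' - y‖ ≤ 1 / ((k:ℝ) + 1) / 2 := by
        have h2 := mem_closedBall.1 (hC hy).2
        have h3 := mem_closedBall.1 (hC hy').2
        rw [← dist_eq_norm]
        calc dist y' y ≤ dist y' _ + dist y _ := dist_triangle_right _ _ _
          _ ≤ 1 / (4 * ((k : ℝ) + 1)) + 1 / (4 * (k + 1)) := add_le_add h3 h2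
          _ = _ := by field_simp; ring
      refine cone_pn (μ := μ) (c := cg m / 2) (ε := ε Q) ?_ ?_ (hδ0 Q) (hδ1 Q)
        (half_lt_self (by have := hδ0 Q; positivity)) (hC hy).1 (hC hy').1 hd
      · rw [hQT]; exact norm_proj_le T
      · rw [hQT]; exact norm_sub_proj_le T
    have : Countable t := htc.to_subtype
    have : Nonempty ι := by
      obtain ⟨y, hy⟩ := hne
      exact ⟨(hSD y hy).choose⟩
    obtain ⟨e, he⟩ := exists_surjective_nat ι
    let D' : ℕ → Set E := fun i => D (e i)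
    have hD'm : ∀ i, MeasurableSet (D' i) := fun i => (hDc _).measurableSet
    let S' : ℕ → Set E := fun i => S ∩ disjointed D' i
    have hSS : S = ⋃ i, S' i := by
      rw [← inter_iUnion, iUnion_disjointed]
      symm
      rw [inter_eq_left]
      intro y hy
      obtain ⟨i, hi⟩ := hSD y hy
      obtain ⟨n, hn⟩ := he i
      exact mem_iUnion.2 ⟨n, by show y ∈ D (e n); rw [hn]; exact hi⟩
    calc μH[m] (proj T₀ '' S) = μH[m] (⋃ i, proj T₀ '' S' i) := by
          rw [← image_iUnion, ← hSS]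
      _ ≤ ∑' i, μH[m] (proj T₀ '' S' i) := measure_iUnion_le _
      _ ≤ ∑' i, η * μH[m] (S' i) := by
          refine ENNReal.tsum_le_tsum fun i => hDm (e i) _ ?_
          exact inter_subset_right.trans (disjointed_subset D' i)
      _ = η * ∑' i, μH[m] (S' i) := ENNReal.tsum_mul_left
      _ = η * μH[m] S := by
          conv_rhs => rw [hSS]
          rw [measure_iUnion]
          · intro i j hij
            exact (disjoint_disjointed D' hij).mono inter_subset_right inter_subset_right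
          · exact fun i => hS.inter (MeasurableSet.disjointed hD'm i)
  have hlim : Tendsto (fun η : ℝ≥0 => (η : ℝ≥0∞) * μH[m] S) (𝓝[>] 0) (𝓝 (((0:ℝ≥0) : ℝ≥0∞) * μH[m] S)) :=
    ENNReal.Tendsto.mul_const ((ENNReal.continuous_coe.tendsto 0).mono_left nhdsWithin_le_nhds)
      (Or.inr hfin)
  rw [ENNReal.coe_zero, zero_mul] at hlim
  refine le_antisymm (ge_of_tendsto hlim ?_) zero_le
  filter_upwards [self_mem_nhdsWithin] with η hη
  exact key η hη

end Vale.Agent.P214.AREA
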