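import Mathlib
import Vale.Agent.P214.AREA.Sard

/-! # P214, block AREA: the area formula with fibre sums -/

open MeasureTheory Set Filter Topology Metric
open scoped ENNReal NNReal RealInnerProductSpace

set_option linter.unusedSectionVars false

namespace Vale.Agent.P214.AREA

variable {E : Type*} [NormedAddCommGroup E] [InnerProductSpace ℝ E] [FiniteDimensional ℝ E]
  [MeasurableSpace E] [BorelSpace E] {m : ℕ}

lemma aemeasurable_jac {μ : Measure E} {P : E → E →L[ℝ] E} (hP : AEStronglyMeasurable P μ)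
    (T₀ : Submodule ℝ E) : AEMeasurable (fun y => jac (proj T₀) (P y)) μ :=
  ((continuous_jac (proj T₀)).comp_aestronglyMeasurable hP).aemeasurable

lemma lintegral_sig {μ : Measure E} {p : E →L[ℝ] E} {J : E → ℝ}
    (hJ : AEMeasurable J μ) {B : Set E} {g : E → ℝ≥0∞} (hg : Measurable g) :
    ∫⁻ x, g x ∂(sig μ p J B) = ∫⁻ y in B, g (p y) * ENNReal.ofReal (J y) ∂μ := by
  have hpm : Measurable (p : E → E) := p.continuous.measurable
  unfold sig
  rw [lintegral_map hg hpm, lintegral_withDensity_eq_lintegral_mul₀ (g := fun y => g (p y))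
    (hJ.mono_measure Measure.restrict_le_self).ennreal_ofReal (hg.comp hpm).aemeasurable]
  refine lintegral_congr fun y => ?_
  rw [Pi.mul_apply, mul_comm]

/-- **Area formula with fibre sums**, all points (the points with a vertical tangent plane
project to a null set). -/
theorem area {μ : Measure E} [IsFiniteMeasure μ] (hac : μ ≪ (μH[m] : Measure E))
    {P : E → E →L[ℝ] E} (hP : AEStronglyMeasurable P μ) {θ : E → ℕ}
    (htan : ∀ᵐ y ∂μ, 1 ≤ θ y ∧ ∃ T : Submodule ℝ E, P y = proj T ∧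
      IsApproxTangent m μ y (θ y) T)
    {c : Set E} (hc : ∀ᵐ y ∂μ, y ∈ c)
    (hlow : ∀ S, MeasurableSet S → S ⊆ c → μH[m] S ≤ μ S)
    {T₀ : Submodule ℝ E} (hT₀ : Module.finrank ℝ T₀ = m) {A : Set E} (hA : ∀ᵐ y ∂μ, y ∈ A) :
    ∃ S : Set E, MeasurableSet S ∧ S ⊆ A ∧ S ⊆ c ∧ μ Sᶜ = 0 ∧
      (∀ y ∈ S, 1 ≤ θ y ∧ ∃ T : Submodule ℝ E, P y = proj T ∧ IsApproxTangent m μ y (θ y) T) ∧
      ∀ B, MeasurableSet B → AEMeasurable (fsum (proj T₀) θ (S ∩ B))
          ((μH[m] : Measure E).restrict (T₀ : Set E)) ∧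
        ∀ g : E → ℝ≥0∞, Measurable g →
          ∫⁻ y in B, g (proj T₀ y) * ENNReal.ofReal (jac (proj T₀) (P y)) ∂μ =
            ∫⁻ x in (T₀ : Set E), g x * fsum (proj T₀) θ (S ∩ B) x ∂μH[m] := by
  set p := proj T₀ with hp
  have hpm : Measurable (p : E → E) := p.continuous.measurable
  set lam := (μH[m] : Measure E).restrict (T₀ : Set E) with hlam
  let A' : Set E := {y | y ∈ A ∧ y ∈ c ∧ 1 ≤ θ y ∧ ∃ T : Submodule ℝ E, P y = proj T ∧
      IsApproxTangent m μ y (θ y) T}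
  have hA' : ∀ᵐ y ∂μ, y ∈ A' := by
    filter_upwards [hA, hc, htan] with y h1 h2 h3
    exact ⟨h1, h2, h3⟩
  obtain ⟨S₁, hS₁m, hS₁A, hS₁J, hS₁⟩ := exists_fibre hac hP MeasurableSet.univ
    (htan.mono fun y hy _ => hy) hT₀ hA'
  have hbad : ∀ᵐ y ∂μ, y ∈ A' ∧ (y ∈ S₁ ↔ 0 < jac p (P y)) := by
    filter_upwards [hA', hS₁J] with y h1 h2
    exact ⟨h1, h2 (mem_univ y)⟩
  obtain ⟨Z, hZ1, hZ2, hZ3⟩ := exists_measurable_superset_of_null (ae_iff.1 hbad)
  set S₀ : Set E := (S₁ ∪ Z)ᶜ with hS₀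
  have hS₀m : MeasurableSet S₀ := (hS₁m.union hZ2).compl
  have hS₀A : ∀ y ∈ S₀, y ∈ A' ∧ jac p (P y) = 0 := by
    intro y hy
    have h1 : y ∉ S₁ := fun h => hy (Or.inl h)
    have h2 : y ∉ Z := fun h => hy (Or.inr h)
    have h3 : y ∈ A' ∧ (y ∈ S₁ ↔ 0 < jac p (P y)) := by
      by_contra hcon
      exact h2 (hZ1 hcon)
    refine ⟨h3.1, ?_⟩
    have h4 : ¬ 0 < jac p (P y) := fun h => h1 (h3.2.2 h)
    exact le_antisymm (not_lt.1 h4) (jac_nonneg _ _)
  have hfin : μH[m] S₀ ≠ ⊤ :=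
    ((hlow S₀ hS₀m fun y hy => (hS₀A y hy).1.2.1).trans_lt (measure_lt_top _ _)).ne
  have hsard : μH[m] (p '' S₀) = 0 := by
    refine sard (μ := μ) hT₀ hS₀m hfin fun y hy => ?_
    obtain ⟨⟨-, -, h1, T, hPT, hT⟩, hJ⟩ := hS₀A y hy
    exact ⟨θ y, T, h1, hT, by rw [← hPT]; exact hJ⟩
  have hdisj : Disjoint S₁ S₀ := by
    rw [Set.disjoint_left]
    exact fun y h1 h2 => h2 (Or.inl h1)
  have hnull : ∀ᵐ x ∂lam, x ∉ p '' S₀ :=
    ae_restrict_of_ae (measure_eq_zero_iff_ae_notMem.1 hsard)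
  have hfs : ∀ B, fsum p θ ((S₁ ∪ S₀) ∩ B) =ᵐ[lam] fsum p θ (S₁ ∩ B) := by
    intro B
    filter_upwards [hnull] with x hx
    rw [union_inter_distrib_right, fsum_union (hdisj.mono inter_subset_left inter_subset_left)]
    have : fsum p θ (S₀ ∩ B) x = 0 := by
      refine fsum_eq_zero fun h => hx ?_
      exact image_mono inter_subset_left h
    rw [this, add_zero]
  refine ⟨S₁ ∪ S₀, hS₁m.union hS₀m, ?_, ?_, ?_, ?_, fun B hB => ⟨?_, fun g hg => ?_⟩⟩
  · refine union_subset (fun y hy => (hS₁A hy).2.1) (fun y hy => (hS₀A y hy).1.1)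
  · refine union_subset (fun y hy => (hS₁A hy).2.2.1) (fun y hy => (hS₀A y hy).1.2.1)
  · refine measure_mono_null (fun y hy => ?_) hZ3
    by_contra hcon
    have h1 : y ∉ S₁ := fun h => hy (Or.inl h)
    exact hy (Or.inr fun h => h.elim h1 hcon)
  · rintro y (hy | hy)
    · exact (hS₁A hy).2.2.2
    · exact (hS₀A y hy).1.2.2
  · exact ((hS₁ B hB).1.aemeasurable).congr (hfs B).symm
  · rw [← lintegral_sig (aemeasurable_jac hP T₀) hg]
    have h1 := (hS₁ B hB).2
    rw [univ_inter] at h1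
    rw [h1, lintegral_withDensity_eq_lintegral_mul _ (hS₁ B hB).1 hg]
    refine lintegral_congr_ae ?_
    filter_upwards [hfs B] with x hx
    rw [hx, Pi.mul_apply, mul_comm]

/-- approximate tangents are local -/
lemma isApproxTangent_restrict' {μ : Measure E} {y : E} {W : Set E} (hW : W ∈ 𝓝 y) {q : ℕ}
    {T : Submodule ℝ E} (h : IsApproxTangent m μ y q T) :
    IsApproxTangent m (μ.restrict W) y q T := by
  refine ⟨h.1, fun f hf hfs => ?_⟩
  refine (h.2 f hf hfs).congr' ?_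
  obtain ⟨K, hK⟩ := hfs.isBounded.subset_closedBall (0 : E)
  obtain ⟨ρ, hρ, hρW⟩ := Metric.mem_nhds_iff.1 hW
  have hc : Tendsto (fun r : ℝ => |K| * r) (𝓝[>] 0) (𝓝 0) := by
    have : Continuous fun r : ℝ => |K| * r := by fun_prop
    have h2 := this.tendsto 0
    rw [mul_zero] at h2
    exact h2.mono_left nhdsWithin_le_nhds
  filter_upwards [hc.eventually (gt_mem_nhds hρ), self_mem_nhdsWithin] with r hr hr0
  congr 1
  symm
  refine setIntegral_eq_integral_of_forall_compl_eq_zero fun z hz => ?_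
  by_contra hne
  have h3 : r⁻¹ • (z - y) ∈ closedBall (0 : E) K := hK (subset_tsupport _ hne)
  have hr0' : 0 < r := hr0
  rw [mem_closedBall, dist_zero_right, norm_smul, norm_inv, Real.norm_of_nonneg hr0'.le,
    ← div_eq_inv_mul, div_le_iff₀ hr0'] at h3
  refine hz (hρW (mem_ball.2 ?_))
  rw [dist_eq_norm z y]
  have h5 : K * r ≤ |K| * r := by gcongr; exact le_abs_self K
  linarith

lemma hausdorff_le_weight {U : Set E} (V : IntegralVarifold m U) {S : Set E}
    (hS : MeasurableSet S) (hc : S ⊆ V.carrier) : μH[m] S ≤ V.weight S := by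
  unfold IntegralVarifold.weight weightOf
  rw [withDensity_apply _ hS, Measure.restrict_restrict hS, inter_eq_self_of_subset_left hc]
  calc μH[m] S = ∫⁻ _ in S, 1 ∂μH[m] := by rw [setLIntegral_one]
    _ ≤ _ := by
      refine setLIntegral_mono' hS fun y hy => ?_
      exact_mod_cast V.mult_pos y (hc hy)

/-- **Area formula with fibre sums for an integral varifold** restricted to an open set `W` of
finite weight. `S` can be chosen inside any set `A` of full measure. -/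
theorem varifold_area {U : Set E} (V : IntegralVarifold m U) {W : Set E} (hW : IsOpen W)
    (hfin : V.weight W ≠ ⊤) {T₀ : Submodule ℝ E} (hT₀ : Module.finrank ℝ T₀ = m) {A : Set E}
    (hA : ∀ᵐ y ∂V.weight, y ∈ A) :
    ∃ S : Set E, MeasurableSet S ∧ S ⊆ A ∧ S ⊆ V.carrier ∧ S ⊆ W ∧ (V.weight.restrict W) Sᶜ = 0 ∧
      (∀ y ∈ S, 1 ≤ V.mult y ∧ IsApproxTangent m V.weight y (V.mult y) (V.tangent y) ∧
        IsApproxTangent m (V.weight.restrict W) y (V.mult y) (V.tangent y)) ∧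
      ∀ B, MeasurableSet B →
        AEMeasurable (fun x => ∑' y : {y : E // y ∈ S ∧ y ∈ B ∧ T₀.starProjection y = x},
          (V.mult y : ℝ≥0∞)) ((μH[m] : Measure E).restrict (T₀ : Set E)) ∧
        ∀ g : E → ℝ≥0∞, Measurable g →
          ∫⁻ y in B, g (T₀.starProjection y) *
              ENNReal.ofReal (jac T₀.starProjection ((V.tangent y).starProjection))
              ∂(V.weight.restrict W) =
            ∫⁻ x in (T₀ : Set E), g x *
              ∑' y : {y : E // y ∈ S ∧ y ∈ B ∧ T₀.starProjection y = x},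
                (V.mult y : ℝ≥0∞) ∂μH[m] := by
  have hfm : IsFiniteMeasure (V.weight.restrict W) := isFiniteMeasure_restrict.2 hfin
  have hWae : ∀ᵐ y ∂(V.weight.restrict W), y ∈ W := ae_restrict_mem hW.measurableSet
  have htan0 : ∀ᵐ y ∂V.weight, IsApproxTangent m V.weight y (V.mult y) (V.tangent y) :=
    V.tangent_spec
  have hcar : ∀ᵐ y ∂(V.weight.restrict W), y ∈ V.carrier := ae_restrict_of_ae V.ae_mem_carrier
  have htan : ∀ᵐ y ∂(V.weight.restrict W), 1 ≤ V.mult y ∧ ∃ T : Submodule ℝ E,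
      proj (V.tangent y) = proj T ∧ IsApproxTangent m (V.weight.restrict W) y (V.mult y) T := by
    filter_upwards [hWae, hcar, ae_restrict_of_ae htan0] with y h1 h2 h3
    exact ⟨V.mult_pos y h2, V.tangent y, rfl, isApproxTangent_restrict' (hW.mem_nhds h1) h3⟩
  have hlow : ∀ S, MeasurableSet S → S ⊆ V.carrier ∩ W → μH[m] S ≤ (V.weight.restrict W) S := by
    intro S hS hSc
    rw [Measure.restrict_apply hS, inter_eq_self_of_subset_left (fun y hy => (hSc hy).2)]
    exact hausdorff_le_weight V hS fun y hy => (hSc hy).1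
  obtain ⟨S, hSm, hSA, hSc, hS0, -, hS⟩ := area (μ := V.weight.restrict W)
    (Measure.restrict_le_self.absolutelyContinuous.trans (weight_ac V))
    (V.tangent_meas.mono_measure Measure.restrict_le_self) htan (c := V.carrier ∩ W)
    (hcar.and hWae) hlow hT₀
    (A := {y | y ∈ A ∧ IsApproxTangent m V.weight y (V.mult y) (V.tangent y)})
    ((ae_restrict_of_ae hA).and (ae_restrict_of_ae htan0))
  refine ⟨S, hSm, fun y hy => (hSA hy).1, fun y hy => (hSc hy).1, fun y hy => (hSc hy).2, hS0,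
    fun y hy => ⟨V.mult_pos y (hSc hy).1, (hSA hy).2,
      isApproxTangent_restrict' (hW.mem_nhds (hSc hy).2) (hSA hy).2⟩, fun B hB => ?_⟩
  have h1 : (fun x => ∑' y : {y : E // y ∈ S ∧ y ∈ B ∧ T₀.starProjection y = x},
      (V.mult y : ℝ≥0∞)) = fsum (proj T₀) V.mult (S ∩ B) := by
    ext x
    exact fsum_subtype _ _ _ _ _
  have h2 : ∀ x, ∑' y : {y : E // y ∈ S ∧ y ∈ B ∧ T₀.starProjection y = x},
      (V.mult y : ℝ≥0∞) = fsum (proj T₀) V.mult (S ∩ B) x := fun x => congrFun h1 x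
  refine ⟨by rw [h1]; exact (hS B hB).1, fun g hg => ?_⟩
  simp only [h2]
  exact (hS B hB).2 g hg

end Vale.Agent.P214.AREA
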