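import Mathlib
import Vale.Agent.P214.AREA.Area
import Vale.Agent.P214.DEN.A

/-! # P214, block AREA: the area formula without density hypotheses

A measure with integral approximate tangent planes almost everywhere is absolutely continuous with
respect to `H^m`, and the good points are `σ`-finite for `H^m`. -/

open MeasureTheory Set Filter Topology Metric
open scoped ENNReal NNReal RealInnerProductSpace

set_option linter.unusedSectionVars false

namespace Vale.Agent.P214.AREA

variable {E : Type*} [NormedAddCommGroup E] [InnerProductSpace ℝ E] [FiniteDimensional ℝ E]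
  [MeasurableSpace E] [BorelSpace E] {m : ℕ}

lemma bmp_ge {z : E} (h : ‖z‖ ≤ 1 / 2) : 9 / 16 ≤ bmp z := by
  unfold bmp
  have h1 : ‖z‖ ^ 2 ≤ 1 / 4 := by
    have := norm_nonneg z
    nlinarith
  have := le_prof h1 (by norm_num : (1:ℝ)/4 ≤ 1)
  norm_num at this ⊢
  linarith

lemma real_closedBall_le {μ : Measure E} [IsFiniteMeasure μ] (y : E) {r : ℝ} (hr : 0 < r) :
    μ.real (closedBall y (r / 2)) ≤ 16 / 9 * ∫ z, bmp (r⁻¹ • (z - y)) ∂μ := by
  have h1 : ∫ z, (closedBall y (r / 2)).indicator (fun _ => (1:ℝ)) z ∂μ =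
      μ.real (closedBall y (r / 2)) := by
    rw [integral_indicator measurableSet_closedBall]
    simp
  rw [← h1, ← integral_const_mul]
  refine integral_mono ((integrable_const _).indicator measurableSet_closedBall)
    ((integrable_shift continuous_bmp (fun z => by
      rw [abs_of_nonneg (bmp_nonneg z)]; exact bmp_le_one z) _ _).const_mul _) fun z => ?_
  by_cases hz : z ∈ closedBall y (r / 2)
  · rw [indicator_of_mem hz]
    rw [mem_closedBall, dist_eq_norm] at hz
    have h2 : ‖r⁻¹ • (z - y)‖ ≤ 1 / 2 := by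
      rw [norm_smul, norm_inv, Real.norm_of_nonneg hr.le, ← div_eq_inv_mul, div_le_iff₀ hr]
      linarith
    have h3 := bmp_ge h2
    show (1:ℝ) ≤ 16 / 9 * bmp (r⁻¹ • (z - y))
    linarith
  · rw [indicator_of_notMem hz]
    have := bmp_nonneg (r⁻¹ • (z - y))
    show (0:ℝ) ≤ 16 / 9 * bmp (r⁻¹ • (z - y))
    positivity

lemma le_real_closedBall {μ : Measure E} [IsFiniteMeasure μ] (y : E) {r : ℝ} (hr : 0 < r) :
    ∫ z, bmp (r⁻¹ • (z - y)) ∂μ ≤ μ.real (closedBall y r) := by
  have h1 : ∫ z, (closedBall y r).indicator (fun _ => (1:ℝ)) z ∂μ =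
      μ.real (closedBall y r) := by
    rw [integral_indicator measurableSet_closedBall]
    simp
  rw [← h1]
  refine integral_mono ((integrable_shift continuous_bmp (fun z => by
      rw [abs_of_nonneg (bmp_nonneg z)]; exact bmp_le_one z) _ _))
    ((integrable_const _).indicator measurableSet_closedBall) fun z => ?_
  by_cases hz : z ∈ closedBall y r
  · rw [indicator_of_mem hz]; exact bmp_le_one _
  · rw [indicator_of_notMem hz]
    rw [mem_closedBall, dist_eq_norm, not_le] at hz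
    rw [bmp_eq_zero]
    rw [norm_smul, norm_inv, Real.norm_of_nonneg hr.le, ← div_eq_inv_mul, le_div_iff₀ hr]
    linarith

/-- a set with uniform upper density bound: absolute continuity -/
lemma restrict_le_of_upper {μ : Measure E} [IsFiniteMeasure μ] {B : Set E} (hB : MeasurableSet B)
    {K ε : ℝ} (hK : 0 < K) (hε : 0 < ε)
    (h : ∀ y ∈ B, ∀ r, 0 < r → r ≤ ε → μ.real (closedBall y r) ≤ K * r ^ m) :
    μ.restrict B ≤ (ENNReal.ofReal K) • (μH[m] : Measure E) := by
  have hK0 : ENNReal.ofReal K ≠ 0 := (ENNReal.ofReal_pos.2 hK).ne'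
  have hKt : ENNReal.ofReal K ≠ ⊤ := ENNReal.ofReal_ne_top
  have h1 : (ENNReal.ofReal K)⁻¹ • μ.restrict B ≤ (μH[m] : Measure E) := by
    refine Measure.le_hausdorffMeasure (m : ℝ) _ (ENNReal.ofReal (ε / 2))
      (ENNReal.ofReal_pos.2 (by positivity)) fun s hs => ?_
    rw [Measure.smul_apply, smul_eq_mul, mul_comm, ← div_eq_mul_inv,
      ENNReal.div_le_iff hK0 hKt, Measure.restrict_apply' hB]
    rcases (s ∩ B).eq_empty_or_nonempty with hsB | ⟨y, hys, hyB⟩
    · rw [hsB, measure_empty]; exact zero_le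
    have hst : ediam s ≠ ⊤ := (hs.trans_lt ENNReal.ofReal_lt_top).ne
    set d := (ediam s).toReal with hd
    have hd0 : 0 ≤ d := ENNReal.toReal_nonneg
    have hdε : d ≤ ε / 2 := by
      rw [hd]
      exact ENNReal.toReal_le_of_le_ofReal (by positivity) hs
    have hsub : ∀ r, d < r → s ∩ B ⊆ closedBall y r := by
      intro r hr z hz
      rw [mem_closedBall, dist_edist]
      refine le_trans ?_ hr.le
      exact ENNReal.toReal_mono hst (edist_le_ediam_of_mem hz.1 hys)
    have hle : ∀ᶠ r in 𝓝[>] d, μ (s ∩ B) ≤ ENNReal.ofReal (K * r ^ m) := by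
      filter_upwards [Ioc_mem_nhdsGT (show d < ε by linarith)] with r hr
      calc μ (s ∩ B) ≤ μ (closedBall y r) := measure_mono (hsub r hr.1)
        _ = ENNReal.ofReal (μ.real (closedBall y r)) := by rw [ofReal_measureReal]
        _ ≤ _ := ENNReal.ofReal_le_ofReal (h y hyB r (hd0.trans_lt hr.1) hr.2)
    have hlim : Tendsto (fun r : ℝ => ENNReal.ofReal (K * r ^ m)) (𝓝[>] d)
        (𝓝 (ENNReal.ofReal (K * d ^ m))) := by
      have hc : Continuous fun r : ℝ => ENNReal.ofReal (K * r ^ m) :=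
        ENNReal.continuous_ofReal.comp (by fun_prop)
      exact (hc.tendsto d).mono_left nhdsWithin_le_nhds
    have h2 := ge_of_tendsto hlim hle
    refine h2.trans ?_
    rw [ENNReal.ofReal_mul hK.le, ENNReal.ofReal_pow hd0, hd, ENNReal.ofReal_toReal hst,
      ENNReal.rpow_natCast, mul_comm]
  intro s
  have h2 := h1 s
  rw [Measure.smul_apply, smul_eq_mul, mul_comm, ← div_eq_mul_inv, ENNReal.div_le_iff hK0 hKt] at h2
  rw [Measure.smul_apply, smul_eq_mul, mul_comm]
  exact h2

/-- **Absolute continuity** from approximate tangent planes. -/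
theorem ac_of_tangent {μ : Measure E} [IsFiniteMeasure μ]
    (htan : ∀ᵐ y ∂μ, ∃ (q : ℕ) (T : Submodule ℝ E), IsApproxTangent m μ y q T) :
    μ ≪ (μH[m] : Measure E) := by
  let B : ℕ → Set E := fun k => {y | ∀ r, 0 < r → r ≤ 1 / ((k:ℝ) + 1) →
    ∫ z, bmp (r⁻¹ • (z - y)) ∂μ ≤ k * r ^ m}
  have hBc : ∀ k, IsClosed (B k) := by
    intro k
    simp only [B, Set.ofPred_forall]
    refine isClosed_iInter fun r => isClosed_iInter fun h1 => isClosed_iInter fun h2 => ?_
    refine isClosed_le (continuous_int_shift continuous_bmp ?_ r) continuous_const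
    intro z
    rw [abs_of_nonneg (bmp_nonneg z)]
    exact bmp_le_one z
  have hcov : ∀ᵐ y ∂μ, y ∈ ⋃ k, B k := by
    filter_upwards [htan] with y hy
    obtain ⟨q, T, hfin, hlim⟩ := hy
    have h1 := hlim bmp continuous_bmp hasCompactSupport_bmp
    set c := (q:ℝ) * ∫ z in (T : Set E), bmp z ∂μH[m] with hc
    have h2 := h1.eventually (gt_mem_nhds (lt_add_one c))
    obtain ⟨r₀, hr₀, hr₀2⟩ := (eventually_nhdsWithin_iff.1 h2 |> Metric.eventually_nhds_iff.1)
    obtain ⟨k, hk⟩ := exists_nat_one_div_lt hr₀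
    obtain ⟨l, hl⟩ := exists_nat_ge (c + 1)
    refine mem_iUnion.2 ⟨max k l, fun r hr hrk => ?_⟩
    have hkl : 1 / (((max k l : ℕ) : ℝ) + 1) ≤ 1 / ((k:ℝ) + 1) := by
      gcongr
      exact le_max_left _ _
    have h6 := hr₀2 (y := r) (by rw [Real.dist_eq, sub_zero, abs_of_pos hr]; linarith) hr
    have hrm : 0 < r ^ m := by positivity
    rw [div_lt_iff₀ hrm] at h6
    refine h6.le.trans ?_
    gcongr
    refine hl.trans ?_
    exact_mod_cast le_max_right k l
  refine Measure.AbsolutelyContinuous.mk fun X hX hX0 => ?_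
  have h3 : ∀ k, μ (X ∩ B k) = 0 := by
    intro k
    have h4 := restrict_le_of_upper (m := m) (μ := μ) (hBc k).measurableSet
      (K := 16 / 9 * ((k:ℝ) + 1) * 2 ^ m) (ε := 1 / ((k:ℝ) + 1) / 2) (by positivity) (by positivity)
      (fun y hy r hr hrk => by
        have e1 := real_closedBall_le (μ := μ) y (r := 2 * r) (by positivity)
        have e2 := hy (2 * r) (by positivity) (by linarith)
        rw [show 2 * r / 2 = r by ring] at e1
        rw [mul_pow] at e2
        have e3 : (0:ℝ) ≤ 2 ^ m * r ^ m := by positivity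
        nlinarith)
    have h5 := h4 X
    rw [Measure.smul_apply, hX0, smul_eq_mul, mul_zero, Measure.restrict_apply hX] at h5
    exact le_antisymm h5 zero_le
  have h4 : μ (X ∩ ⋃ k, B k) = 0 := by
    rw [inter_iUnion]
    exact measure_iUnion_null h3
  have h5 : μ (X \ ⋃ k, B k) = 0 := measure_mono_null (fun y hy => hy.2) hcov
  rw [← inter_union_sdiff X (⋃ k, B k)]
  exact le_antisymm ((measure_union_le _ _).trans (by rw [h4, h5, add_zero])) zero_le

/-- finiteness from a uniform lower density bound -/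
lemma hausdorff_lt_top_uniform (μ : Measure E) [IsFiniteMeasure μ] {A : Set E} {c : ℝ}
    (hc : 0 < c) {r0 : ℝ} (hr0 : 0 < r0)
    (h : ∀ x ∈ A, ∀ r, 0 < r → r < r0 → c * r ^ m ≤ μ.real (closedBall x r)) :
    μH[m] A < ⊤ := by
  -- coverings at every scale
  have key : ∀ n : ℕ, ∃ (u : Set E) (ρ : E → ℝ), u.Countable ∧
      (∀ y ∈ u, 0 < ρ y ∧ ρ y ≤ 1 / (n + 1)) ∧ A ⊆ ⋃ y ∈ u, closedBall y (5 * ρ y) ∧
      ∑' y : u, ENNReal.ofReal ((ρ y) ^ m) ≤ ENNReal.ofReal (1 / c) * μ univ := by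
    intro n
    have hn : (0:ℝ) < 1 / (n + 1) := by positivity
    set ρ : ℝ := min (1 / (n + 1)) (r0 / 2) with hρ
    have hρ0 : 0 < ρ := lt_min hn (by linarith)
    have hρn : ρ ≤ 1 / (n + 1) := min_le_left _ _
    have hρr : ρ < r0 := lt_of_le_of_lt (min_le_right _ _) (by linarith)
    obtain ⟨u, huA, hdisj, hcov⟩ := Vitali.exists_disjoint_subfamily_covering_enlargement_closedBall
      A (fun x => x) (fun _ => ρ) (1 / (n + 1)) (fun a ha => hρn) 5 (by norm_num)
    have hucount : u.Countable := by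
      refine hdisj.countable_of_nonempty_interior fun y hy => ?_
      exact (nonempty_ball.2 hρ0).mono ball_subset_interior_closedBall
    refine ⟨u, fun _ => ρ, hucount, fun y hy => ⟨hρ0, hρn⟩, ?_, ?_⟩
    · intro a ha
      obtain ⟨b, hb, hab⟩ := hcov a ha
      exact mem_biUnion hb (hab (mem_closedBall_self hρ0.le))
    · have h1 : ∀ y : u, ENNReal.ofReal (ρ ^ m)
          ≤ ENNReal.ofReal (1 / c) * μ (closedBall (y : E) ρ) := by
        intro y
        have h2 := h y (huA y.2) ρ hρ0 hρr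
        have h3 : ρ ^ m ≤ 1 / c * μ.real (closedBall (y : E) ρ) := by
          rw [one_div, ← div_eq_inv_mul, le_div_iff₀ hc]; linarith
        calc ENNReal.ofReal (ρ ^ m)
            ≤ ENNReal.ofReal (1 / c * μ.real (closedBall (y : E) ρ)) :=
              ENNReal.ofReal_le_ofReal h3
          _ = _ := by rw [ENNReal.ofReal_mul (by positivity), ofReal_measureReal]
      calc ∑' y : u, ENNReal.ofReal (ρ ^ m)
          ≤ ∑' y : u, ENNReal.ofReal (1 / c) * μ (closedBall (y : E) ρ) :=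
            ENNReal.tsum_le_tsum h1
        _ = ENNReal.ofReal (1 / c) * ∑' y : u, μ (closedBall (y : E) ρ) :=
            ENNReal.tsum_mul_left
        _ = ENNReal.ofReal (1 / c) * μ (⋃ y ∈ u, closedBall y ρ) := by
            rw [measure_biUnion hucount hdisj fun y _ => measurableSet_closedBall]
        _ ≤ ENNReal.ofReal (1 / c) * μ univ := by
            gcongr
            exact subset_univ _
  choose u ρ hucount hρ hcov hsum using key
  have hcountable : ∀ n, Countable (u n) := fun n => (hucount n).to_subtype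
  have hlim1 : Tendsto (fun n : ℕ => (1:ℝ) / (n + 1)) atTop (𝓝 0) :=
    tendsto_one_div_add_atTop_nhds_zero_nat
  have hlim2 : Tendsto (fun n : ℕ => ENNReal.ofReal (10 * (1 / (n + 1)))) atTop (𝓝 0) := by
    have h1 := (hlim1.const_mul 10)
    rw [mul_zero] at h1
    have h2 := (ENNReal.continuous_ofReal.tendsto 0).comp h1
    have h3 : ENNReal.ofReal 0 = 0 := ENNReal.ofReal_zero
    rw [h3] at h2
    exact h2
  have hmain := Measure.hausdorffMeasure_le_liminf_tsum (ι := fun n : ℕ => u n) (m : ℝ) A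
    (l := atTop) (fun n : ℕ => ENNReal.ofReal (10 * (1 / (n + 1)))) hlim2
    (fun n y => closedBall (y : E) (5 * ρ n y)) ?_ ?_
  · refine lt_of_le_of_lt hmain ?_
    have hup : ∀ n, ∑' y : u n, Metric.ediam (closedBall (y : E) (5 * ρ n y)) ^ (m : ℝ)
        ≤ ENNReal.ofReal (10 ^ m) * (ENNReal.ofReal (1 / c) * μ univ) := by
      intro n
      have h1 : ∀ y : u n, Metric.ediam (closedBall (y : E) (5 * ρ n y)) ^ (m : ℝ)
          ≤ ENNReal.ofReal (10 ^ m) * ENNReal.ofReal ((ρ n y) ^ m) := by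
        intro y
        have hy := hρ n y y.2
        calc Metric.ediam (closedBall (y : E) (5 * ρ n y)) ^ (m : ℝ)
            ≤ ENNReal.ofReal (2 * (5 * ρ n y)) ^ (m : ℝ) := by
              gcongr
              exact ediam_closedBall_le' _ (by linarith [hy.1])
          _ = ENNReal.ofReal ((2 * (5 * ρ n y)) ^ m) := by
              rw [ENNReal.rpow_natCast, ENNReal.ofReal_pow (by linarith [hy.1])]
          _ = _ := by
              rw [← ENNReal.ofReal_mul (by positivity)]
              congr 1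
              rw [← mul_pow]; ring
      calc _ ≤ ∑' y : u n, ENNReal.ofReal (10 ^ m) * ENNReal.ofReal ((ρ n y) ^ m) :=
            ENNReal.tsum_le_tsum h1
        _ = ENNReal.ofReal (10 ^ m) * ∑' y : u n, ENNReal.ofReal ((ρ n y) ^ m) :=
            ENNReal.tsum_mul_left
        _ ≤ _ := by
            gcongr
            exact hsum n
    have hlt : ENNReal.ofReal (10 ^ m) * (ENNReal.ofReal (1 / c) * μ univ) < ⊤ :=
      ENNReal.mul_lt_top ENNReal.ofReal_lt_top
        (ENNReal.mul_lt_top ENNReal.ofReal_lt_top (measure_lt_top _ _))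
    refine lt_of_le_of_lt ?_ hlt
    refine Filter.liminf_le_of_le ?_ ?_
    · exact ⟨0, Eventually.of_forall fun _ => zero_le⟩
    · intro b hb
      obtain ⟨n, hn⟩ := hb.exists
      exact hn.trans (hup n)
  · refine Eventually.of_forall fun n y => ?_
    have hy := hρ n y y.2
    refine (ediam_closedBall_le' _ (by linarith [hy.1])).trans (ENNReal.ofReal_le_ofReal ?_)
    linarith [hy.2]
  · refine Eventually.of_forall fun n => ?_
    refine (hcov n).trans ?_
    rw [biUnion_eq_iUnion]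

/-- Sard without the finiteness hypothesis -/
theorem sard' {μ : Measure E} [IsFiniteMeasure μ] {T₀ : Submodule ℝ E}
    (hT₀ : Module.finrank ℝ T₀ = m) {S : Set E} (hS : MeasurableSet S)
    (h : ∀ y ∈ S, ∃ (q : ℕ) (T : Submodule ℝ E), 1 ≤ q ∧ IsApproxTangent m μ y q T ∧
      jac (proj T₀) (proj T) = 0) : μH[m] (proj T₀ '' S) = 0 := by
  have hcg := cg_pos m
  let A : ℕ → Set E := fun k => {y | ∀ r, 0 < r → r ≤ 1 / ((k:ℝ) + 1) →
    cg m / 2 * r ^ m ≤ ∫ z, bmp (r⁻¹ • (z - y)) ∂μ}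
  have hAc : ∀ k, IsClosed (A k) := by
    intro k
    simp only [A, Set.ofPred_forall]
    refine isClosed_iInter fun r => isClosed_iInter fun h1 => isClosed_iInter fun h2 => ?_
    refine isClosed_le continuous_const (continuous_int_shift continuous_bmp ?_ r)
    intro z
    rw [abs_of_nonneg (bmp_nonneg z)]
    exact bmp_le_one z
  have hcov : S ⊆ ⋃ k, S ∩ A k := by
    intro y hy
    obtain ⟨q, T, hq, hT, -⟩ := h y hy
    obtain ⟨hfin, hlim⟩ := hT
    have h1 := hlim bmp continuous_bmp hasCompactSupport_bmp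
    have e1 : ∫ z in (T : Set E), bmp z ∂μH[m] = cg m := integral_plane hfin
    rw [e1] at h1
    have hq' : (1:ℝ) ≤ q := by exact_mod_cast hq
    have h3 : cg m / 2 < q * cg m := by nlinarith
    have h4 := h1.eventually (lt_mem_nhds h3)
    obtain ⟨r₀, hr₀, hr₀2⟩ := (eventually_nhdsWithin_iff.1 h4 |> Metric.eventually_nhds_iff.1)
    obtain ⟨k, hk⟩ := exists_nat_one_div_lt hr₀
    refine mem_iUnion.2 ⟨k, hy, fun r hr hrk => ?_⟩
    have h6 := hr₀2 (y := r) (by rw [Real.dist_eq, sub_zero, abs_of_pos hr]; linarith) hr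
    have hrm : 0 < r ^ m := by positivity
    rw [lt_div_iff₀ hrm] at h6
    exact h6.le
  have hk : ∀ k, μH[m] (proj T₀ '' (S ∩ A k)) = 0 := by
    intro k
    refine sard (μ := μ) hT₀ (hS.inter (hAc k).measurableSet) ?_ fun y hy => h y hy.1
    refine (hausdorff_lt_top_uniform μ (c := cg m / 2) (r0 := 1 / ((k:ℝ) + 1)) (by positivity)
      (by positivity) fun y hy r hr hrk => ?_).ne
    exact (hy.2 r hr hrk.le).trans (le_real_closedBall y hr)
  refine measure_mono_null (image_mono hcov) ?_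
  rw [image_iUnion]
  exact measure_iUnion_null hk

/-- **Area formula with fibre sums**, no hypotheses besides the approximate tangent planes. -/
theorem area_free {μ : Measure E} [IsFiniteMeasure μ]
    {P : E → E →L[ℝ] E} (hP : AEStronglyMeasurable P μ) {θ : E → ℕ}
    (htan : ∀ᵐ y ∂μ, 1 ≤ θ y ∧ ∃ T : Submodule ℝ E, P y = proj T ∧
      IsApproxTangent m μ y (θ y) T)
    {T₀ : Submodule ℝ E} (hT₀ : Module.finrank ℝ T₀ = m) {A : Set E} (hA : ∀ᵐ y ∂μ, y ∈ A) :
    ∃ S : Set E, MeasurableSet S ∧ S ⊆ A ∧ μ Sᶜ = 0 ∧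
      (∀ y ∈ S, 1 ≤ θ y ∧ ∃ T : Submodule ℝ E, P y = proj T ∧ IsApproxTangent m μ y (θ y) T) ∧
      ∀ B, MeasurableSet B → AEMeasurable (fsum (proj T₀) θ (S ∩ B))
          ((μH[m] : Measure E).restrict (T₀ : Set E)) ∧
        ∀ g : E → ℝ≥0∞, Measurable g →
          ∫⁻ y in B, g (proj T₀ y) * ENNReal.ofReal (jac (proj T₀) (P y)) ∂μ =
            ∫⁻ x in (T₀ : Set E), g x * fsum (proj T₀) θ (S ∩ B) x ∂μH[m] := by
  have hac : μ ≪ (μH[m] : Measure E) :=
    ac_of_tangent (htan.mono fun y hy => ⟨θ y, hy.2.choose, hy.2.choose_spec.2⟩)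
  set p := proj T₀ with hp
  have hpm : Measurable (p : E → E) := p.continuous.measurable
  set lam := (μH[m] : Measure E).restrict (T₀ : Set E) with hlam
  let A' : Set E := {y | y ∈ A ∧ 1 ≤ θ y ∧ ∃ T : Submodule ℝ E, P y = proj T ∧
      IsApproxTangent m μ y (θ y) T}
  have hA' : ∀ᵐ y ∂μ, y ∈ A' := by
    filter_upwards [hA, htan] with y h1 h3
    exact ⟨h1, h3⟩
  obtain ⟨S₁, hS₁m, hS₁A, hS₁J, hS₁⟩ := exists_fibre hac hP MeasurableSet.univ
    (htan.mono fun y hy _ => hy) hT₀ hA'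
  have hbad : ∀ᵐ y ∂μ, y ∈ A' ∧ (y ∈ S₁ ↔ 0 < jac p (P y)) := by
    filter_upwards [hA', hS₁J] with y h1 h2
    exact ⟨h1, h2 (mem_univ y)⟩
  obtain ⟨Z, hZ1, hZ2, hZ3⟩ := exists_measurable_superset_of_null (ae_iff.1 hbad)
  set S₀ : Set E := (S₁ ∪ Z)ᶜ with hS₀
  have hS₀m : MeasurableSet S₀ := (hS₁m.union hZ2).compl
  have hS₀A : ∀ y ∈ S₀, y ∈ A' ∧ jac p (P y) = 0 := by
    intro y hy
    have h1 : y ∉ S₁ := fun h => hy (Or.inl h)
    have h2 : y ∉ Z := fun h => hy (Or.inr h)
    have h3 : y ∈ A' ∧ (y ∈ S₁ ↔ 0 < jac p (P y)) := by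
      by_contra hcon
      exact h2 (hZ1 hcon)
    refine ⟨h3.1, ?_⟩
    have h4 : ¬ 0 < jac p (P y) := fun h => h1 (h3.2.2 h)
    exact le_antisymm (not_lt.1 h4) (jac_nonneg _ _)
  have hsard : μH[m] (p '' S₀) = 0 := by
    refine sard' (μ := μ) hT₀ hS₀m fun y hy => ?_
    obtain ⟨⟨-, h1, T, hPT, hT⟩, hJ⟩ := hS₀A y hy
    exact ⟨θ y, T, h1, hT, by rw [← hPT]; exact hJ⟩
  have hdisj : Disjoint S₁ S₀ := by
    rw [Set.disjoint_left]
    exact fun y h1 h2 => h2 (Or.inl h1)
  have hnull : ∀ᵐ x ∂lam, x ∉ p '' S₀ :=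
    ae_restrict_of_ae (measure_eq_zero_iff_ae_notMem.1 hsard)
  have hfs : ∀ B, fsum p θ ((S₁ ∪ S₀) ∩ B) =ᵐ[lam] fsum p θ (S₁ ∩ B) := by
    intro B
    filter_upwards [hnull] with x hx
    rw [union_inter_distrib_right, fsum_union (hdisj.mono inter_subset_left inter_subset_left)]
    have : fsum p θ (S₀ ∩ B) x = 0 := by
      refine fsum_eq_zero fun h => hx ?_
      exact image_mono inter_subset_left h
    rw [this, add_zero]
  refine ⟨S₁ ∪ S₀, hS₁m.union hS₀m, ?_, ?_, ?_, fun B hB => ⟨?_, fun g hg => ?_⟩⟩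
  · refine union_subset (fun y hy => (hS₁A hy).2.1) (fun y hy => (hS₀A y hy).1.1)
  · refine measure_mono_null (fun y hy => ?_) hZ3
    by_contra hcon
    have h1 : y ∉ S₁ := fun h => hy (Or.inl h)
    exact hy (Or.inr fun h => h.elim h1 hcon)
  · rintro y (hy | hy)
    · exact (hS₁A hy).2.2
    · exact (hS₀A y hy).1.2
  · exact ((hS₁ B hB).1.aemeasurable).congr (hfs B).symm
  · rw [← lintegral_sig (aemeasurable_jac hP T₀) hg]
    have h1 := (hS₁ B hB).2
    rw [univ_inter] at h1
    rw [h1, lintegral_withDensity_eq_lintegral_mul _ (hS₁ B hB).1 hg]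
    refine lintegral_congr_ae ?_
    filter_upwards [hfs B] with x hx
    rw [hx, Pi.mul_apply, mul_comm]

end Vale.Agent.P214.AREA
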