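import Mathlib
import Vale.Agent.P214.AREA.Mult
import Vale.Agent.P214.FV.Planes

/-! # P214, block AREA: bounds of the Jacobian by the tilt -/

open MeasureTheory Set Filter Topology Metric
open scoped ENNReal NNReal RealInnerProductSpace

set_option linter.unusedSectionVars false

namespace Vale.Agent.P214.AREA

variable {E : Type*} [NormedAddCommGroup E] [InnerProductSpace ℝ E] [FiniteDimensional ℝ E]
  {m : ℕ}

/-- elementary inequality: products of numbers in `[0,1]` -/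
lemma one_sub_sum_le_prod {ι : Type*} (s : Finset ι) {a : ι → ℝ} (h0 : ∀ i ∈ s, 0 ≤ a i)
    (h1 : ∀ i ∈ s, a i ≤ 1) : 1 - ∑ i ∈ s, a i ≤ ∏ i ∈ s, (1 - a i) := by
  classical
  induction s using Finset.induction_on with
  | empty => simp
  | insert i s hi ih =>
    rw [Finset.sum_insert hi, Finset.prod_insert hi]
    have h2 := ih (fun j hj => h0 j (Finset.mem_insert_of_mem hj))
      (fun j hj => h1 j (Finset.mem_insert_of_mem hj))
    have h3 := h0 i (Finset.mem_insert_self i s)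
    have h4 := h1 i (Finset.mem_insert_self i s)
    have h5 : 0 ≤ ∑ j ∈ s, a j := Finset.sum_nonneg fun j hj => h0 j (Finset.mem_insert_of_mem hj)
    have h6 : 0 ≤ (1 - a i) := by linarith
    calc 1 - (a i + ∑ j ∈ s, a j) ≤ (1 - a i) * (1 - ∑ j ∈ s, a j) := by nlinarith
      _ ≤ _ := mul_le_mul_of_nonneg_left h2 h6

lemma sqrt_ge {x : ℝ} (h0 : 0 ≤ x) (h1 : x ≤ 1) : 1 - (x / 2 + x ^ 2 / 2) ≤ Real.sqrt (1 - x) := by
  refine Real.le_sqrt_of_sq_le ?_
  have h2 : 0 ≤ x ^ 2 := sq_nonneg x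
  nlinarith [mul_nonneg h0 h2, mul_nonneg h2 h2, mul_nonneg (mul_nonneg h0 h2) (sub_nonneg.2 h1)]

lemma sum_sq_le_sq_sum' {ι : Type*} {s : Finset ι} {a : ι → ℝ} (h0 : ∀ i ∈ s, 0 ≤ a i) :
    ∑ i ∈ s, a i ^ 2 ≤ (∑ i ∈ s, a i) ^ 2 := by
  rw [sq (∑ i ∈ s, a i), Finset.sum_mul]
  refine Finset.sum_le_sum fun i hi => ?_
  rw [sq]
  exact mul_le_mul_of_nonneg_left (Finset.single_le_sum h0 hi) (h0 i hi)

/-- bounds for `∏ √(1 - λ_i)` -/
lemma prod_sqrt_bounds {ι : Type*} (s : Finset ι) {a : ι → ℝ} (h0 : ∀ i ∈ s, 0 ≤ a i)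
    (h1 : ∀ i ∈ s, a i ≤ 1) :
    1 - (∑ i ∈ s, a i) / 2 - (∑ i ∈ s, a i) ^ 2 / 2 ≤ ∏ i ∈ s, Real.sqrt (1 - a i) ∧
      ∏ i ∈ s, Real.sqrt (1 - a i) ≤ 1 - (∑ i ∈ s, a i) / 2 + (∑ i ∈ s, a i) ^ 2 / 8 ∧
      1 - ∑ i ∈ s, a i ≤ ∏ i ∈ s, Real.sqrt (1 - a i) := by
  have hS0 : 0 ≤ ∑ i ∈ s, a i := Finset.sum_nonneg h0
  refine ⟨?_, ?_, ?_⟩
  · have h2 := one_sub_sum_le_prod s (a := fun i => a i / 2 + a i ^ 2 / 2)
      (fun i hi => by have := h0 i hi; positivity)
      (fun i hi => by have := h0 i hi; have := h1 i hi; nlinarith)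
    have h3 : ∏ i ∈ s, (1 - (a i / 2 + a i ^ 2 / 2)) ≤ ∏ i ∈ s, Real.sqrt (1 - a i) := by
      refine Finset.prod_le_prod (fun i hi => ?_) (fun i hi => sqrt_ge (h0 i hi) (h1 i hi))
      have := h0 i hi; have := h1 i hi; nlinarith
    have h4 : ∑ i ∈ s, a i ^ 2 ≤ (∑ i ∈ s, a i) ^ 2 := sum_sq_le_sq_sum' h0
    rw [Finset.sum_add_distrib, ← Finset.sum_div, ← Finset.sum_div] at h2
    linarith
  · have h2 : ∏ i ∈ s, Real.sqrt (1 - a i) ≤ ∏ i ∈ s, Real.exp (-(a i / 2)) := by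
      refine Finset.prod_le_prod (fun i _ => Real.sqrt_nonneg _) (fun i hi => ?_)
      rw [Real.sqrt_le_left (Real.exp_pos _).le, ← Real.exp_nat_mul]
      have := Real.add_one_le_exp (-(a i))
      have e : ((2:ℕ):ℝ) * -(a i / 2) = - a i := by push_cast; ring
      rw [e]; linarith
    rw [← Real.exp_sum, Finset.sum_neg_distrib, ← Finset.sum_div] at h2
    refine h2.trans ?_
    set x := (∑ i ∈ s, a i) / 2 with hx
    have hx0 : 0 ≤ x := by positivity
    have h3 : Real.exp (-x) ≤ 1 - x + x ^ 2 / 2 := by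
      have h4 := Real.quadratic_le_exp_of_nonneg hx0
      have h5 : Real.exp (-x) * Real.exp x = 1 := by rw [← Real.exp_add]; simp
      have h6 := Real.exp_pos (-x)
      have h7 : Real.exp (-x) * (1 + x + x ^ 2 / 2) ≤ 1 := by
        calc _ ≤ Real.exp (-x) * Real.exp x := mul_le_mul_of_nonneg_left h4 h6.le
          _ = 1 := h5
      have h8 : 1 ≤ (1 - x + x ^ 2 / 2) * (1 + x + x ^ 2 / 2) := by nlinarith [pow_nonneg hx0 4]
      have h9 : 0 < 1 + x + x ^ 2 / 2 := by positivity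
      exact le_of_mul_le_mul_right (h7.trans h8) h9
    calc Real.exp (-x) ≤ 1 - x + x ^ 2 / 2 := h3
      _ = _ := by rw [hx]; ring
  · have h2 := one_sub_sum_le_prod s h0 h1
    refine h2.trans (Finset.prod_le_prod (fun i hi => by have := h1 i hi; linarith) fun i hi => ?_)
    have := h0 i hi; have := h1 i hi
    refine Real.le_sqrt_of_sq_le ?_
    nlinarith

/-- the Jacobian in terms of the squared sines of the principal angles -/
lemma exists_angles {T T₀ : Submodule ℝ E} (hT : Module.finrank ℝ T = m)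
    (hT₀ : Module.finrank ℝ T₀ = m) :
    ∃ a : Fin m → ℝ, (∀ i, 0 ≤ a i) ∧ (∀ i, a i ≤ 1) ∧
      jac (proj T₀) (proj T) = ∏ i, Real.sqrt (1 - a i) ∧
      FV.tilt T₀ T.starProjection = ∑ i, a i ∧
      FV.tilt T₀ T.starProjection ≤ m * ‖proj T - proj T₀‖ ^ 2 := by
  obtain ⟨ι₀, hr₀, ha₀, h₀⟩ := exists_param hT₀
  obtain ⟨ι, hr, ha, h⟩ := exists_param hT
  set A := pmap ι₀ ι with hA
  set M : EuclideanSpace ℝ (Fin m) →ₗ[ℝ] EuclideanSpace ℝ (Fin m) :=
    (ContinuousLinearMap.adjoint A).toLinearMap ∘ₗ A.toLinearMap with hM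
  have hMx : ∀ x y, ⟪x, M y⟫ = ⟪A x, A y⟫ := fun x y => by
    show ⟪x, (ContinuousLinearMap.adjoint A) (A y)⟫ = _
    rw [ContinuousLinearMap.adjoint_inner_right]
  have hsym : M.IsSymmetric := fun x y => by
    rw [hMx, real_inner_comm, hMx, real_inner_comm]
  have hn : Module.finrank ℝ (EuclideanSpace ℝ (Fin m)) = m := by simp
  set ev := hsym.eigenvalues hn with hev
  set b := hsym.eigenvectorBasis hn with hb
  have hpι : ∀ x, proj T₀ (ι x) = ι₀ (A x) := fun x => h₀ (ι x)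
  have hAn : ∀ x, ‖A x‖ = ‖proj T₀ (ι x)‖ := fun x => by rw [hpι, ι₀.norm_map]
  have hAle : ∀ x, ‖A x‖ ≤ ‖x‖ := fun x => by
    rw [hAn]
    refine le_trans ?_ (ι.norm_map x).le
    unfold proj
    exact Submodule.norm_starProjection_apply_le _ _
  have hevb : ∀ i, ev i = ‖A (b i)‖ ^ 2 := by
    intro i
    have h1 := hsym.apply_eigenvectorBasis hn i
    have h2 : ⟪b i, M (b i)⟫ = ev i := by
      rw [hb, h1]
      rw [RCLike.ofReal_real_eq_id, id, real_inner_smul_right, real_inner_self_eq_norm_sq,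
        OrthonormalBasis.norm_eq_one]
      simp [hev]
    rw [← h2, hMx, real_inner_self_eq_norm_sq]
  have hev0 : ∀ i, 0 ≤ ev i := fun i => by rw [hevb]; positivity
  have hev1 : ∀ i, ev i ≤ 1 := fun i => by
    rw [hevb]
    have h1 := hAle (b i)
    rw [hb, OrthonormalBasis.norm_eq_one] at h1
    have h2 := norm_nonneg (A (b i))
    rw [hb] at h2 ⊢
    nlinarith
  have hdet : jac (proj T₀) (proj T) = ∏ i, Real.sqrt (ev i) := by
    rw [jac_eq h₀ ha h]
    have h1 : LinearMap.det M = ∏ i, ev i := by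
      have := hsym.det_eq_prod_eigenvalues hn
      simpa using this
    have h2 : LinearMap.det M = |LinearMap.det A.toLinearMap| ^ 2 := by
      rw [hM, LinearMap.det_comp, det_adj, sq_abs, sq]
    rw [← hA, ← Real.sqrt_sq (abs_nonneg (LinearMap.det A.toLinearMap)), ← h2, h1,
      Real.sqrt_prod _ fun i _ => hev0 i]
  have htr : FV.tr (T₀.starProjection.comp T.starProjection) = LinearMap.trace ℝ _ M := by
    have e1 : ((T₀.starProjection.comp T.starProjection : E →L[ℝ] E) : E →ₗ[ℝ] E) =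
        ((proj T₀).toLinearMap ∘ₗ ι.toLinearMap) ∘ₗ
          (ContinuousLinearMap.adjoint ι.toContinuousLinearMap).toLinearMap := by
      ext z
      show proj T₀ (proj T z) = _
      rw [h z]
      rfl
    unfold FV.tr
    rw [e1, LinearMap.trace_comp_comm']
    congr 1
    refine LinearMap.ext fun x => ?_
    refine ext_inner_left ℝ fun y => ?_
    rw [hMx]
    show ⟪y, (ContinuousLinearMap.adjoint ι.toContinuousLinearMap) (proj T₀ (ι x))⟫ = _
    rw [ContinuousLinearMap.adjoint_inner_right]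
    show ⟪ι y, proj T₀ (ι x)⟫ = _
    rw [← ι₀.inner_map_map, ← hpι, ← hpι]
    have h5 : proj T₀ (proj T₀ (ι x)) = proj T₀ (ι x) := FV.star_self T₀ _
    calc ⟪ι y, proj T₀ (ι x)⟫ = ⟪ι y, proj T₀ (proj T₀ (ι x))⟫ := by rw [h5]
      _ = ⟪proj T₀ (ι y), proj T₀ (ι x)⟫ := (FV.inner_star T₀ _ _).symm
  have htilt : FV.tilt T₀ T.starProjection = m - LinearMap.trace ℝ _ M := by
    rw [FV.tilt_star, hT, htr]
  have htrev : LinearMap.trace ℝ _ M = ∑ i, ev i := by
    have := hsym.trace_eq_sum_eigenvalues hn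
    simpa using this
  refine ⟨fun i => 1 - ev i, fun i => by linarith [hev1 i], fun i => by linarith [hev0 i], ?_, ?_, ?_⟩
  · rw [hdet]
    refine Finset.prod_congr rfl fun i _ => ?_
    rw [sub_sub_cancel]
  · rw [htilt, htrev, Finset.sum_sub_distrib]
    simp
  · rw [htilt, LinearMap.trace_eq_sum_inner M b]
    have h6 : ∀ i, 1 - ⟪b i, M (b i)⟫ ≤ ‖proj T - proj T₀‖ ^ 2 := by
      intro i
      rw [hMx, real_inner_self_eq_norm_sq, hAn]
      have h7 : proj T (ι (b i)) = ι (b i) := by rw [h, ha]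
      have h8 := FV.norm_sq_star_add_co T₀ (ι (b i))
      rw [ι.norm_map, OrthonormalBasis.norm_eq_one] at h8
      have h9 : FV.co T₀ (ι (b i)) = (proj T - proj T₀) (ι (b i)) := by
        rw [FunLike.coe_sub, Pi.sub_apply, h7]
        rfl
      have h10 := (proj T - proj T₀).le_opNorm (ι (b i))
      rw [← h9, ι.norm_map, OrthonormalBasis.norm_eq_one, mul_one] at h10
      have h11 : ‖FV.co T₀ (ι (b i))‖ ^ 2 ≤ ‖proj T - proj T₀‖ ^ 2 := by gcongr
      have h12 : proj T₀ (ι (b i)) = T₀.starProjection (ι (b i)) := rfl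
      rw [h12]
      linarith
    calc (m:ℝ) - ∑ i, ⟪b i, M (b i)⟫ = ∑ i : Fin m, (1 - ⟪b i, M (b i)⟫) := by
          rw [Finset.sum_sub_distrib]; simp
      _ ≤ ∑ i : Fin m, ‖proj T - proj T₀‖ ^ 2 := Finset.sum_le_sum fun i _ => h6 i
      _ = _ := by simp

/-- **Bounds of the Jacobian by the tilt** `e = m - tr (p P)`. -/
theorem jac_bounds {T T₀ : Submodule ℝ E} (hT : Module.finrank ℝ T = m)
    (hT₀ : Module.finrank ℝ T₀ = m) :
    jac (proj T₀) (proj T) ≤ 1 ∧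
      1 - jac (proj T₀) (proj T) ≤ FV.tilt T₀ T.starProjection ∧
      FV.tilt T₀ T.starProjection ≤ m * ‖proj T - proj T₀‖ ^ 2 ∧
      1 - FV.tilt T₀ T.starProjection / 2 - FV.tilt T₀ T.starProjection ^ 2 / 2 ≤
        jac (proj T₀) (proj T) ∧
      jac (proj T₀) (proj T) ≤
        1 - FV.tilt T₀ T.starProjection / 2 + FV.tilt T₀ T.starProjection ^ 2 / 8 := by
  obtain ⟨a, h0, h1, h2, h3, h4⟩ := exists_angles hT hT₀
  obtain ⟨h5, h6, h7⟩ := prod_sqrt_bounds Finset.univ (fun i _ => h0 i) (fun i _ => h1 i)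
  rw [← h2, ← h3] at h5 h6 h7
  refine ⟨?_, by linarith, h4, h5, h6⟩
  rw [h2]
  refine Finset.prod_le_one (fun i _ => Real.sqrt_nonneg _) fun i _ => ?_
  exact Real.sqrt_le_one.2 (by linarith [h0 i])

end Vale.Agent.P214.AREA
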