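import Mathlib
import Vale.Agent.P214.AREA.Free
import Vale.Agent.P214.AREA.JacBd
import Vale.Agent.P214.INT.Def
import Vale.Agent.P214.Skel.Defs

/-! # P214, block CONV: cylinder data with a.e. integral tangent planes are `INT.IntCyl` -/

open MeasureTheory Set Filter Topology Metric
open scoped ENNReal NNReal RealInnerProductSpace

set_option linter.unusedSectionVars false

namespace Vale.Agent.P214.AREA

open Vale.Agent.P214.FV

variable {E : Type*} [NormedAddCommGroup E] [InnerProductSpace ℝ E] [FiniteDimensional ℝ E]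
  [MeasurableSpace E] [BorelSpace E] {m : ℕ}

/-- restriction of `CylStat` to the cylinder -/
lemma cylStat_restrict {T : Submodule ℝ E} {G : Set E} {h : ℝ} {ν : Measure E}
    {P : E → E →L[ℝ] E} (hC : CylStat m T G h ν P) :
    CylStat m T G h (ν.restrict (T.starProjection ⁻¹' G)) P := by
  have hfin := hC.fin
  have hO : IsOpen (T.starProjection ⁻¹' G) := hC.isOpen.preimage T.starProjection.continuous
  refine ⟨inferInstance, hC.meas.restrict, ae_restrict_of_ae hC.proj, hC.dimT, hC.isOpen,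
    ae_restrict_of_ae hC.slab, fun X hX hb => ?_⟩
  rw [← hC.stat X hX hb]
  obtain ⟨K, hK, hKG, h0⟩ := hb
  refine setIntegral_eq_integral_of_forall_compl_eq_zero fun y hy => ?_
  have hyK : T.starProjection y ∉ K := fun h => hy (hKG h)
  have hopen : IsOpen {y : E | T.starProjection y ∉ K} :=
    hK.isClosed.isOpen_compl.preimage T.starProjection.continuous
  have : X =ᶠ[𝓝 y] fun _ => (0 : E) := by
    filter_upwards [hopen.mem_nhds hyK] with z hz
    exact h0 z hz
  rw [this.fderiv_eq]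
  simp [tr]

open Classical in
/-- the integer density of a measure at a point -/
noncomputable def idens (m : ℕ) (μ : Measure E) (P : E → E →L[ℝ] E) (y : E) : ℕ :=
  if h : ∃ q : ℕ, 1 ≤ q ∧ ∃ T : Submodule ℝ E, P y = proj T ∧ IsApproxTangent m μ y q T then
    h.choose else 0

lemma idens_spec {μ : Measure E} {P : E → E →L[ℝ] E} {y : E}
    (h : ∃ q : ℕ, 1 ≤ q ∧ ∃ T : Submodule ℝ E, P y = proj T ∧ IsApproxTangent m μ y q T) :
    1 ≤ idens m μ P y ∧ ∃ T : Submodule ℝ E, P y = proj T ∧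
      IsApproxTangent m μ y (idens m μ P y) T := by
  unfold idens
  rw [dif_pos h]
  exact h.choose_spec

/-- **General converter.** A measure which is stationary in the cylinder over `G` and has
integral approximate tangent planes a.e. there satisfies, after restriction to the cylinder, all
fields of `INT.IntCyl` (in particular the area formula). The good set `S` can be chosen inside
any set `A` of full measure. -/
theorem intCyl_of_cylStat {T : Submodule ℝ E} {G : Set E} {h : ℝ} {ν : Measure E}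
    {P : E → E →L[ℝ] E} (hC : CylStat m T G h ν P)
    (hint : ∀ᵐ y ∂ν, T.starProjection y ∈ G → ∃ q : ℕ, 1 ≤ q ∧ ∃ S : Submodule ℝ E,
      P y = S.starProjection ∧ IsApproxTangent m ν y q S)
    {A : Set E} (hA : ∀ᵐ y ∂ν, T.starProjection y ∈ G → y ∈ A) :
    ∃ (S : Set E) (θ : E → ℕ), S ⊆ A ∧ S ⊆ T.starProjection ⁻¹' G ∧
      (∀ y ∈ S, ∃ L : Submodule ℝ E, P y = L.starProjection ∧
        IsApproxTangent m ν y (θ y) L) ∧
      INT.IntCyl m T G h (ν.restrict (T.starProjection ⁻¹' G)) P S θ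
        (fun y => jac (proj T) (P y)) := by
  have hfin := hC.fin
  set O : Set E := T.starProjection ⁻¹' G with hOdef
  have hO : IsOpen O := hC.isOpen.preimage T.starProjection.continuous
  set μ : Measure E := ν.restrict O with hμ
  have hC' : CylStat m T G h μ P := cylStat_restrict hC
  have hOae : ∀ᵐ y ∂μ, y ∈ O := ae_restrict_mem hO.measurableSet
  set θ : E → ℕ := idens m μ P with hθ
  have hintν : ∀ᵐ y ∂μ, ∃ q : ℕ, 1 ≤ q ∧ ∃ L : Submodule ℝ E, P y = proj L ∧
      IsApproxTangent m ν y q L := by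
    filter_upwards [ae_restrict_of_ae hint, hOae] with y h1 h2
    exact h1 h2
  have htan : ∀ᵐ y ∂μ, 1 ≤ θ y ∧ ∃ L : Submodule ℝ E, P y = proj L ∧
      IsApproxTangent m μ y (θ y) L := by
    filter_upwards [hintν, hOae] with y h1 h2
    obtain ⟨q, hq, L, hL, hT⟩ := h1
    exact idens_spec ⟨q, hq, L, hL, isApproxTangent_restrict' (hO.mem_nhds h2) hT⟩
  have hAae : ∀ᵐ y ∂μ, y ∈ {y | y ∈ A ∧ y ∈ O ∧ ∃ q : ℕ, 1 ≤ q ∧ ∃ L : Submodule ℝ E,
      P y = proj L ∧ IsApproxTangent m ν y q L} := by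
    filter_upwards [ae_restrict_of_ae hA, hOae, hintν] with y h1 h2 h3
    exact ⟨h1 h2, h2, h3⟩
  obtain ⟨S, hSm, hSA, hS0, hSt, hS⟩ := area_free (T₀ := T) hC'.meas htan hC'.dimT hAae
  have hqθ : ∀ y ∈ S, ∃ L : Submodule ℝ E, P y = L.starProjection ∧
        IsApproxTangent m ν y (θ y) L := by
    intro y hy
    obtain ⟨h1, h2, q, hq, L, hL, hT⟩ := hSA hy
    obtain ⟨h3, L', hL', hT'⟩ := hSt y hy
    have hT2 := isApproxTangent_restrict' (hO.mem_nhds h2) hT
    have e1 := DEN.tendsto_ratio hT2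
    have e2 := DEN.tendsto_ratio hT'
    have e3 : (q:ℝ) * cg m = θ y * cg m := tendsto_nhds_unique e1 e2
    have e4 : (q:ℝ) = θ y := mul_right_cancel₀ (cg_pos m).ne' e3
    have e5 : q = θ y := by exact_mod_cast e4
    exact ⟨L, hL, e5 ▸ hT⟩
  refine ⟨S, θ, fun y hy => (hSA hy).1, fun y hy => (hSA hy).2.1, hqθ, ?_⟩
  have hJb : ∀ᵐ y ∂μ, jac (proj T) (P y) ≤ 1 ∧
      1 - jac (proj T) (P y) ≤ m * INT.tilt P T y ^ 2 := by
    filter_upwards [hC'.proj] with y hy
    obtain ⟨L, hL, hPL⟩ := hy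
    have hb := jac_bounds hL hC'.dimT
    have e : P y = proj L := hPL
    rw [e]
    refine ⟨hb.1, hb.2.1.trans (hb.2.2.1.trans (le_of_eq ?_))⟩
    unfold INT.tilt
    rw [e]
    rfl
  refine ⟨hC', ?_, hSm, hS0, fun y hy => (hSt y hy).1, fun y hy => ?_,
    aemeasurable_jac hC'.meas T, Eventually.of_forall fun y => jac_nonneg _ _,
    hJb.mono fun y hy => hy.1, hJb.mono fun y hy => hy.2, fun B hB => ?_, fun B hB g hg => ?_⟩
  · rw [hμ, Measure.restrict_apply' hO.measurableSet, compl_inter_self, measure_empty]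
  · obtain ⟨h3, L', hL', hT'⟩ := hSt y hy
    exact DEN.tendsto_ratio hT'
  · have h1 : INT.sheets T S θ B = fsum (proj T) θ (S ∩ B) := by
      ext x
      exact fsum_subtype _ _ _ _ _
    rw [h1]
    exact (hS B hB).1
  · have h1 : INT.sheets T S θ B = fsum (proj T) θ (S ∩ B) := by
      ext x
      exact fsum_subtype _ _ _ _ _
    rw [h1]
    exact (hS B hB).2 g hg

/-- `Skel.IntCyl` gives `INT.IntCyl` on the same cylinder. -/
theorem intCyl_of_skel {Q : ℕ} {T : Submodule ℝ E} {z : E} {R h δ : ℝ} {ν : Measure E}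
    {P : E → E →L[ℝ] E} (hC : Skel.IntCyl m Q T z R h δ ν P)
    {A : Set E} (hA : ∀ᵐ y ∂ν, y ∈ Skel.cylSet T z R → y ∈ A) :
    ∃ (S : Set E) (θ : E → ℕ), S ⊆ A ∧ S ⊆ Skel.cylSet T z R ∧
      (∀ y ∈ S, ∃ L : Submodule ℝ E, P y = L.starProjection ∧
        IsApproxTangent m ν y (θ y) L) ∧
      INT.IntCyl m T (ball z R) h (ν.restrict (Skel.cylSet T z R)) P S θ
        (fun y => jac (proj T) (P y)) :=
  intCyl_of_cylStat hC.cyl hC.int hA

end Vale.Agent.P214.AREA
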